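import Vale.Agent.P371.Pointwise
import Mathlib.Analysis.SpecialFunctions.Trigonometric.Bounds

/-! # The two-term calibration at one point

The functional is `¼ qFun + a tr (Z c(B)) - 2 a² tr Q(B)` with `Q' = c²`, where `c` approximates the
cotangent and `B = A + π/2`.
-/

namespace Vale.Agent.P371.Mid

open Filter Topology Matrix
open scoped ComplexOrder

noncomputable section

theorem cos_le_sinc {x : ℝ} (h : |x| < Real.pi / 2) : Real.cos x ≤ Real.sinc x := by
  wlog hx : 0 ≤ x generalizing x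
  · have := this (x := -x) (by rwa [abs_neg]) (by linarith)
    rwa [Real.cos_neg, Real.sinc_neg] at this
  rcases hx.eq_or_lt with rfl | hx0
  · simp
  rw [abs_of_pos hx0] at h
  have hc : 0 < Real.cos x := Real.cos_pos_of_mem_Ioo ⟨by linarith, h⟩
  rw [Real.sinc_of_ne_zero hx0.ne', le_div_iff₀ hx0]
  have := mul_le_mul_of_nonneg_left (Real.le_tan hx0.le h) hc.le
  rw [Real.tan_eq_sin_div_cos, mul_div_cancel₀ _ hc.ne'] at this
  linarith

/-- The exact kernel inequality of the quadratic term. -/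
theorem bracket {x y : ℝ} (hx : 0 < x ∧ x < Real.pi / 2) (hy : 0 < y ∧ y < Real.pi / 2) :
    2 ≤ ctD (x + Real.pi / 2) (y + Real.pi / 2) - ct (x + Real.pi / 2) * ct (x + y)
      - ct (y + Real.pi / 2) * ct (x + y) := by
  have hcx : 0 < Real.cos x := Real.cos_pos_of_mem_Ioo ⟨by linarith [hx.1], hx.2⟩
  have hcy : 0 < Real.cos y := Real.cos_pos_of_mem_Ioo ⟨by linarith [hy.1], hy.2⟩
  have hs : 0 < Real.sin (x + y) :=
    Real.sin_pos_of_pos_of_lt_pi (by linarith [hx.1, hy.1]) (by linarith [hx.2, hy.2])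
  have e : ctD (x + Real.pi / 2) (y + Real.pi / 2) - ct (x + Real.pi / 2) * ct (x + y)
      - ct (y + Real.pi / 2) * ct (x + y)
      = (Real.sinc (x - y) + Real.cos (x + y)) / (Real.cos x * Real.cos y) := by
    rw [ctD, ct, ct, ct, show x + Real.pi / 2 - (y + Real.pi / 2) = x - y by ring,
      Real.sin_add_pi_div_two, Real.sin_add_pi_div_two, Real.cos_add_pi_div_two,
      Real.cos_add_pi_div_two]
    field_simp
    rw [Real.sin_add]
    ring
  rw [e, le_div_iff₀ (mul_pos hcx hcy)]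
  have h := cos_le_sinc (x := x - y) (abs_lt.mpr ⟨by linarith [hx.1, hy.2], by linarith [hx.2, hy.1]⟩)
  rw [Real.cos_sub] at h
  rw [Real.cos_add]
  linarith

/-- A polynomial primitive of the square of a polynomial. -/
theorem exists_sq_prim (D : ℕ) (c : ℕ → ℝ) :
    ∃ (K : ℕ) (q : ℕ → ℝ), ∀ u, pdd K q u u = pev D c u ^ 2 := by
  set P : Polynomial ℝ := (∑ l ∈ Finset.range D, Polynomial.C (c l) * Polynomial.X ^ l) ^ 2 with hP
  set q : ℕ → ℝ := fun l => if l = 0 then 0 else P.coeff (l - 1) / l with hq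
  refine ⟨P.natDegree + 2, q, fun u => ?_⟩
  have e : P.eval u = pev D c u ^ 2 := by
    simp [hP, pev, Polynomial.eval_finsetSum]
  rw [← e, Polynomial.eval_eq_sum_range, pdd,
    show P.natDegree + 2 = P.natDegree + 1 + 1 from rfl, Finset.sum_range_succ']
  simp only [qdd_self, Nat.cast_zero, zero_mul, mul_zero, add_zero, Nat.add_sub_cancel]
  refine Finset.sum_congr rfl fun l _ => ?_
  simp only [hq, Nat.succ_ne_zero, if_false, Nat.add_sub_cancel]
  field_simp

variable {ι γ : Type} [Fintype ι] [DecidableEq ι] [Fintype γ]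

/-- The derivative of a power. -/
def mPowD (B B' : Matrix ι ι ℂ) : ℕ → Matrix ι ι ℂ
  | 0 => 0
  | l + 1 => B' * B ^ l + B * mPowD B B' l

theorem mderiv_pow {B : ℝ → Matrix ι ι ℂ} {B' : Matrix ι ι ℂ} {x : ℝ} (hB : MDeriv B B' x) :
    ∀ l, MDeriv (fun t => B t ^ l) (mPowD (B x) B' l) x
  | 0 => fun i j => by
      simp only [pow_zero, mPowD, Matrix.zero_apply]
      exact hasDerivAt_const _ _
  | l + 1 => by
      simp only [pow_succ', mPowD]
      exact hB.mul (mderiv_pow hB l)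

/-- `Re tr (Z p(B))`. -/
def lFun (D : ℕ) (c : ℕ → ℝ) (B Z : Matrix ι ι ℂ) : ℝ :=
  ∑ l ∈ Finset.range D, c l * ((B ^ l * Z).trace).re

/-- The derivative of `lFun`. -/
def lFunD (D : ℕ) (c : ℕ → ℝ) (B B' Z Z' : Matrix ι ι ℂ) : ℝ :=
  ∑ l ∈ Finset.range D, c l * ((mPowD B B' l * Z + B ^ l * Z').trace).re

/-- `Re tr q(B)`. -/
def tFun (D : ℕ) (c : ℕ → ℝ) (B : Matrix ι ι ℂ) : ℝ :=
  ∑ l ∈ Finset.range D, c l * ((B ^ l).trace).re

/-- The derivative of `tFun`. -/
def tFunD (D : ℕ) (c : ℕ → ℝ) (B B' : Matrix ι ι ℂ) : ℝ :=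
  ∑ l ∈ Finset.range D, c l * ((mPowD B B' l).trace).re

theorem hasDerivAt_lFun {B Z : ℝ → Matrix ι ι ℂ} {B' Z' : Matrix ι ι ℂ} {x : ℝ}
    (hB : MDeriv B B' x) (hZ : MDeriv Z Z' x) (D : ℕ) (c : ℕ → ℝ) :
    HasDerivAt (fun t => lFun D c (B t) (Z t)) (lFunD D c (B x) B' (Z x) Z') x := by
  refine HasDerivAt.fun_sum fun l _ => HasDerivAt.const_mul _ ?_
  have h := (mderiv_pow hB l).mul hZ
  have ht : HasDerivAt (fun t => (B t ^ l * Z t).trace)
      ((mPowD (B x) B' l * Z x + B x ^ l * Z').trace) x := HasDerivAt.fun_sum fun i _ => h i i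
  exact Complex.reCLM.hasFDerivAt.comp_hasDerivAt x ht

theorem hasDerivAt_tFun {B : ℝ → Matrix ι ι ℂ} {B' : Matrix ι ι ℂ} {x : ℝ}
    (hB : MDeriv B B' x) (D : ℕ) (c : ℕ → ℝ) :
    HasDerivAt (fun t => tFun D c (B t)) (tFunD D c (B x) B') x := by
  refine HasDerivAt.fun_sum fun l _ => HasDerivAt.const_mul _ ?_
  have h := mderiv_pow hB l
  have ht : HasDerivAt (fun t => (B t ^ l).trace) ((mPowD (B x) B' l).trace) x :=
    HasDerivAt.fun_sum fun i _ => h i i
  exact Complex.reCLM.hasFDerivAt.comp_hasDerivAt x ht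

theorem pow_conj {U : Matrix ι ι ℂ} (hU : star U * U = 1) (B : Matrix ι ι ℂ) :
    ∀ l, conjU U B ^ l = conjU U (B ^ l)
  | 0 => by simp [conjU, mul_eq_one_comm.mp hU]
  | l + 1 => by rw [pow_succ', pow_succ', pow_conj hU B l, conjU_mul hU]

theorem mPowD_conj {U : Matrix ι ι ℂ} (hU : star U * U = 1) (B B' : Matrix ι ι ℂ) :
    ∀ l, mPowD (conjU U B) (conjU U B') l = conjU U (mPowD B B' l)
  | 0 => by simp [mPowD, conjU]
  | l + 1 => by simp only [mPowD, mPowD_conj hU B B' l, pow_conj hU, conjU_mul hU, conjU_add]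

theorem lFun_conj {U : Matrix ι ι ℂ} (hU : star U * U = 1) (D : ℕ) (c : ℕ → ℝ)
    (B Z : Matrix ι ι ℂ) : lFun D c (conjU U B) (conjU U Z) = lFun D c B Z := by
  simp only [lFun, pow_conj hU, conjU_mul hU, conjU_trace hU]

theorem lFunD_conj {U : Matrix ι ι ℂ} (hU : star U * U = 1) (D : ℕ) (c : ℕ → ℝ)
    (B B' Z Z' : Matrix ι ι ℂ) :
    lFunD D c (conjU U B) (conjU U B') (conjU U Z) (conjU U Z') = lFunD D c B B' Z Z' := by
  simp only [lFunD, pow_conj hU, mPowD_conj hU, conjU_mul hU, conjU_add, conjU_trace hU]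

theorem tFunD_conj {U : Matrix ι ι ℂ} (hU : star U * U = 1) (D : ℕ) (c : ℕ → ℝ)
    (B B' : Matrix ι ι ℂ) : tFunD D c (conjU U B) (conjU U B') = tFunD D c B B' := by
  simp only [tFunD, mPowD_conj hU, conjU_trace hU]

theorem dg_pow (b : ι → ℝ) (l : ℕ) : dg b ^ l = dg fun i => b i ^ l := by
  simp only [dg, diagonal_pow]
  congr 1
  funext i
  simp

theorem mPowD_diag (b : ι → ℝ) (X : Matrix ι ι ℂ) :
    ∀ l i j, mPowD (dg b) X l i j = X i j * ((qdd l (b j) (b i) : ℝ) : ℂ)
  | 0, i, j => by simp [mPowD, qdd]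
  | l + 1, i, j => by
      simp only [mPowD, Matrix.add_apply, dg_pow]
      simp only [dg, diagonal_mul, mul_diagonal]
      have h := mPowD_diag b X l i j
      simp only [dg] at h
      rw [h]
      simp only [qdd]
      push_cast
      ring

theorem pdd_comm (D : ℕ) (c : ℕ → ℝ) (u v : ℝ) : pdd D c u v = pdd D c v u := by
  rcases eq_or_ne u v with h | h
  · rw [h]
  · have h1 := pdd_mul D c u v
    have h2 := pdd_mul D c v u
    have h3 : (pdd D c u v - pdd D c v u) * (u - v) = 0 := by linear_combination h1 + h2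
    rcases mul_eq_zero.mp h3 with h4 | h4
    · linarith
    · exact absurd (sub_eq_zero.mp h4) h

theorem tFunD_diag (D : ℕ) (c : ℕ → ℝ) (b : ι → ℝ) (κ : ℝ) (P : Matrix ι ι ℂ) :
    tFunD D c (dg b) ((κ : ℂ) • P) = κ * ∑ i, (P i i).re * pdd D c (b i) (b i) := by
  unfold tFunD pdd
  have e : ∀ l, ((mPowD (dg b) ((κ : ℂ) • P) l).trace).re
      = κ * ∑ i, (P i i).re * qdd l (b i) (b i) := by
    intro l
    rw [Matrix.trace, Complex.re_sum, Finset.mul_sum]
    refine Finset.sum_congr rfl fun i _ => ?_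
    rw [Matrix.diag, mPowD_diag, Matrix.smul_apply, smul_eq_mul, Complex.re_mul_ofReal,
      Complex.re_ofReal_mul]
    ring
  simp only [e, Finset.mul_sum]
  rw [Finset.sum_comm]
  exact Finset.sum_congr rfl fun i _ => Finset.sum_congr rfl fun l _ => by ring

theorem lFunD_diag (D : ℕ) (c : ℕ → ℝ) (b : ι → ℝ) (κ : ℝ) (V V' : Matrix ι γ ℂ) :
    lFunD D c (dg b) ((κ : ℂ) • (V * Vᴴ)) (V * Vᴴ) (V' * Vᴴ + V * V'ᴴ)
      = κ * (∑ i, ∑ j, Complex.normSq ((V * Vᴴ) i j) * pdd D c (b i) (b j))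
        + 2 * ∑ i, ∑ s, pev D c (b i) * (star (V i s) * V' i s).re := by
  set P := V * Vᴴ with hP
  set R := V' * Vᴴ + V * V'ᴴ with hR
  have hPh : P.IsHermitian := gram_herm V
  have hn : ∀ i j, (P i j * P j i).re = Complex.normSq (P i j) := by
    intro i j
    rw [← herm_entry hPh i j, Complex.star_def, Complex.mul_conj, Complex.ofReal_re]
  have hd : ∀ i, (R i i).re = 2 * ∑ s, (star (V i s) * V' i s).re := by
    intro i
    simp only [hR, Matrix.add_apply, Matrix.mul_apply, conjTranspose_apply, Complex.add_re,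
      Complex.re_sum, Finset.mul_sum, ← Finset.sum_add_distrib]
    refine Finset.sum_congr rfl fun s _ => ?_
    simp only [Complex.star_def, Complex.mul_re, Complex.conj_re, Complex.conj_im]
    ring
  have e : ∀ l, ((mPowD (dg b) ((κ : ℂ) • P) l * P + dg b ^ l * R).trace).re
      = κ * (∑ i, ∑ j, Complex.normSq (P i j) * qdd l (b j) (b i))
        + ∑ i, b i ^ l * (R i i).re := by
    intro l
    rw [Matrix.trace_add, Complex.add_re]
    congr 1
    · simp only [Matrix.trace, Matrix.diag, Matrix.mul_apply, Complex.re_sum, Finset.mul_sum]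
      refine Finset.sum_congr rfl fun i _ => Finset.sum_congr rfl fun j _ => ?_
      rw [mPowD_diag, Matrix.smul_apply, smul_eq_mul, mul_assoc, mul_assoc, Complex.re_ofReal_mul,
        mul_left_comm (P i j), Complex.re_ofReal_mul, hn]
      ring
    · rw [dg_pow]
      simp only [Matrix.trace, Matrix.diag, dg, diagonal_mul, Complex.re_sum,
        Complex.re_ofReal_mul]
  unfold lFunD
  simp only [e, mul_add, Finset.sum_add_distrib, hd]
  congr 1
  · simp only [pdd, Finset.mul_sum]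
    rw [Finset.sum_comm]
    refine Finset.sum_congr rfl fun i _ => ?_
    rw [Finset.sum_comm]
    refine Finset.sum_congr rfl fun j _ => ?_
    have := pdd_comm D c (b i) (b j)
    simp only [pdd] at this
    calc ∑ l ∈ Finset.range D, c l * (κ * (Complex.normSq (P i j) * qdd l (b j) (b i)))
        = κ * (Complex.normSq (P i j) * ∑ l ∈ Finset.range D, c l * qdd l (b j) (b i)) := by
          simp only [Finset.mul_sum]
          exact Finset.sum_congr rfl fun l _ => by ring
      _ = _ := by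
          rw [← this]
          simp only [Finset.mul_sum]
  · simp only [pev, Finset.mul_sum, Finset.sum_mul]
    rw [Finset.sum_comm]
    refine Finset.sum_congr rfl fun i _ => ?_
    rw [Finset.sum_comm]
    exact Finset.sum_congr rfl fun s _ => Finset.sum_congr rfl fun l _ => by ring

/-- The differential inequality at one point. -/
theorem pointwise {lo hi δ : ℝ} (D K : ℕ) (c q : ℕ → ℝ)
    (hq : ∀ u, pdd K q u u = pev D c u ^ 2)
    (hc : ∀ u ∈ Set.Icc lo hi, ∀ v ∈ Set.Icc lo hi,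
      |-pdd D c u v - ctD u v| ≤ δ ∧ |pev D c u * pev D c v - ct u * ct v| ≤ δ)
    {U : Matrix ι ι ℂ} (hU : star U * U = 1) {α : ι → ℝ}
    (ha : ∀ i, 0 < α i ∧ α i < Real.pi / 2)
    (hr : ∀ i j, α i + α j ∈ Set.Icc lo hi) (hb : ∀ i, α i + Real.pi / 2 ∈ Set.Icc lo hi)
    {a : ℝ} (ha0 : 0 ≤ a) (Y Y' : Matrix ι γ ℂ) :
    (1 / 4) * qFunD D c (conjU U (dg α)) (((1 / 2 : ℝ) : ℂ) • (Y * Yᴴ)) (Y * Yᴴ)
        (Y' * Yᴴ + Y * Y'ᴴ)
      + a * lFunD D c (conjU U (dg fun i => α i + Real.pi / 2)) (((1 / 2 : ℝ) : ℂ) • (Y * Yᴴ))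
        (Y * Yᴴ) (Y' * Yᴴ + Y * Y'ᴴ)
      - 2 * a ^ 2 * tFunD K q (conjU U (dg fun i => α i + Real.pi / 2))
        (((1 / 2 : ℝ) : ℂ) • (Y * Yᴴ))
      + a * (1 - 3 / 2 * δ) * frobSq (Y * Yᴴ)
      + (1 / 4) * (cubeTr (Y * Yᴴ) - 2 * δ * (Fintype.card ι : ℝ) ^ 3 * frobSq Y ^ 3)
      ≤ frobSq Y' := by
  have hU' : U * star U = 1 := mul_eq_one_comm.mp hU
  set b : ι → ℝ := fun i => α i + Real.pi / 2 with hbdef
  set V := star U * Y with hV
  set V' := star U * Y' with hV'
  have hY : Y = U * V := by rw [hV, ← Matrix.mul_assoc, hU', Matrix.one_mul]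
  have hY' : Y' = U * V' := by rw [hV', ← Matrix.mul_assoc, hU', Matrix.one_mul]
  have hS : frobSq Y = frobSq V := by rw [hY, frob_unitary hU]
  have hS' : frobSq Y' = frobSq V' := by rw [hY', frob_unitary hU]
  have hZ : Y * Yᴴ = conjU U (V * Vᴴ) := by rw [gram_conj, ← hY]
  have hZ' : Y' * Yᴴ + Y * Y'ᴴ = conjU U (V' * Vᴴ + V * V'ᴴ) := by
    rw [← conjU_add, gram_conj, gram_conj, ← hY, ← hY']
  have hκ : ((1 / 2 : ℝ) : ℂ) • (Y * Yᴴ) = conjU U (((1 / 2 : ℝ) : ℂ) • (V * Vᴴ)) := by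
    rw [hZ, conjU, conjU, mul_smul_comm, smul_mul_assoc]
  have hcube : cubeTr (Y * Yᴴ) = cubeTr (V * Vᴴ) := by
    rw [cubeTr, cubeTr, hZ, conjU_mul hU, conjU_mul hU, conjU_trace hU]
  have hPh : (V * Vᴴ).IsHermitian := gram_herm V
  have hsq : frobSq (Y * Yᴴ) = frobSq (V * Vᴴ) := by
    rw [frobSq_eq_trace, frobSq_eq_trace, (gram_herm Y).eq, hPh.eq, hZ, conjU_mul hU,
      conjU_trace hU]
  rw [hκ, hcube, hsq, hZ', hZ, qFunD_conj hU, lFunD_conj hU, tFunD_conj hU, hS, hS', qFunD_diag,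
    lFunD_diag, tFunD_diag]
  set P := V * Vᴴ with hP
  set X := xMat D c α P * V with hX
  -- the completed square
  have key : ∀ i s, (star (X i s) * V' i s).re + 2 * a * (pev D c (b i) * (star (V i s) * V' i s).re)
      - (Complex.normSq (X i s) / 4 + a * pev D c (b i) * (star (X i s) * V i s).re
        + a ^ 2 * pev D c (b i) ^ 2 * Complex.normSq (V i s)) ≤ Complex.normSq (V' i s) := by
    intro i s
    simp only [Complex.normSq_apply, Complex.star_def, Complex.mul_re, Complex.conj_re,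
      Complex.conj_im]
    nlinarith [sq_nonneg ((V' i s).re - (X i s).re / 2 - a * pev D c (b i) * (V i s).re),
      sq_nonneg ((V' i s).im - (X i s).im / 2 - a * pev D c (b i) * (V i s).im)]
  have tot := Finset.sum_le_sum (s := Finset.univ) fun i (_ : i ∈ Finset.univ) =>
    Finset.sum_le_sum (s := Finset.univ) fun s (_ : s ∈ Finset.univ) => key i s
  simp only [Finset.sum_add_distrib, Finset.sum_sub_distrib, ← Finset.mul_sum,
    ← Finset.sum_div] at tot
  have hdiag : ∀ i, (P i i).re = ∑ s, Complex.normSq (V i s) := fun i => by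
    simp only [hP, Matrix.mul_apply, conjTranspose_apply, Complex.re_sum, Complex.star_def,
      Complex.mul_conj, Complex.ofReal_re]
  have hcross : ∀ i, ∑ s, (star (X i s) * V i s).re
      = ∑ j, pev D c (α i + α j) * Complex.normSq (P i j) := by
    intro i
    have e1 : ∑ s, star (X i s) * V i s = star ((X * Vᴴ) i i) := by
      rw [Matrix.mul_apply, star_sum]
      refine Finset.sum_congr rfl fun s _ => ?_
      simp [conjTranspose_apply]
    rw [← Complex.re_sum, e1, Complex.star_def, Complex.conj_re, hX, Matrix.mul_assoc, ← hP,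
      Matrix.mul_apply, Complex.re_sum]
    refine Finset.sum_congr rfl fun j _ => ?_
    rw [xMat, Matrix.of_apply, mul_assoc, Complex.re_ofReal_mul, ← herm_entry hPh i j,
      Complex.star_def, Complex.mul_conj, Complex.ofReal_re]
  have ht : ∑ i, (P i i).re * pdd K q (b i) (b i)
      = ∑ i, pev D c (b i) ^ 2 * ∑ s, Complex.normSq (V i s) :=
    Finset.sum_congr rfl fun i _ => by rw [hq, hdiag, mul_comm]
  rw [ht]
  -- the quadratic kernel
  set C : ι → ι → ℝ := fun i j => pev D c (α i + α j) with hC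
  have hker : ∀ i j, pdd D c (b i) (b j) + (pev D c (b i) + pev D c (b j)) * C i j
      ≤ -(2 - 3 * δ) := by
    intro i j
    have h1 := (hc _ (hb i) _ (hb j)).1
    have h2 := (hc _ (hb i) _ (hr i j)).2
    have h3 := (hc _ (hb j) _ (hr i j)).2
    have h4 := bracket (ha i) (ha j)
    rw [abs_le] at h1 h2 h3
    simp only [hbdef, hC, add_mul] at *
    linarith [h1.1, h2.2, h3.2]
  have hqq : ∑ i, ∑ j, Complex.normSq (P i j) * pdd D c (b i) (b j)
      + 2 * ∑ i, pev D c (b i) * ∑ j, C i j * Complex.normSq (P i j)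
      ≤ -(2 - 3 * δ) * frobSq P := by
    have sym : ∀ i j, Complex.normSq (P i j) = Complex.normSq (P j i) := fun i j => by
      rw [← herm_entry hPh i j, Complex.star_def, Complex.normSq_conj]
    have e : ∑ i, pev D c (b i) * ∑ j, C i j * Complex.normSq (P i j)
        = ∑ i, ∑ j, pev D c (b j) * (C i j * Complex.normSq (P i j)) := by
      simp only [Finset.mul_sum]
      rw [Finset.sum_comm]
      refine Finset.sum_congr rfl fun i _ => Finset.sum_congr rfl fun j _ => ?_
      simp only [hC, sym j i, add_comm (α j) (α i)]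
    rw [two_mul]
    nth_rewrite 2 [e]
    simp only [Finset.mul_sum, ← Finset.sum_add_distrib, frobSq]
    refine Finset.sum_le_sum fun i _ => Finset.sum_le_sum fun j _ => ?_
    have := mul_le_mul_of_nonneg_left (hker i j) (Complex.normSq_nonneg (P i j))
    nlinarith [this]
  -- the cubic kernel
  have hcore := core_inequality (posSemidef_self_mul_conjTranspose V) ha
  rw [cubeTr_eq]
  have hX2 : ∑ i, ∑ s, Complex.normSq (X i s)
      = ∑ i, ∑ j, ∑ k, tri P i j k * (pev D c (α i + α j) * pev D c (α i + α k)) :=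
    xMat_frob D c α V
  have hcub : (∑ i, ∑ j, ∑ k, tri P i j k) - 2 * δ * (Fintype.card ι : ℝ) ^ 3 * frobSq V ^ 3
      + (∑ i, ∑ j, ∑ k, tri P i j k * pdd D c (α i + α k) (α j + α k))
      + ∑ i, ∑ s, Complex.normSq (X i s) ≤ 0 := by
    have hbd : ∀ i j k, |(-pdd D c (α i + α k) (α j + α k)
          - pev D c (α i + α j) * pev D c (α i + α k))
        - (ctD (α i + α k) (α j + α k) - ct (α i + α j) * ct (α i + α k))| ≤ 2 * δ := by
      intro i j k
      have h3 := (hc _ (hr i k) _ (hr j k)).1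
      have h4 := (hc _ (hr i j) _ (hr i k)).2
      rw [abs_le] at h3 h4 ⊢
      constructor <;> linarith [h3.1, h3.2, h4.1, h4.2]
    have h2 : (∑ i, ∑ j, ∑ k, tri P i j k *
          (ctD (α i + α k) (α j + α k) - ct (α i + α j) * ct (α i + α k)))
        - (∑ i, ∑ j, ∑ k, tri P i j k *
          (-pdd D c (α i + α k) (α j + α k) - pev D c (α i + α j) * pev D c (α i + α k)))
        ≤ 2 * δ * (Fintype.card ι : ℝ) ^ 3 * frobSq V ^ 3 := by
      simp only [← Finset.sum_sub_distrib, ← mul_sub]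
      refine (Finset.sum_le_sum fun i _ => Finset.sum_le_sum fun j _ =>
        Finset.sum_le_sum (g := fun _ => frobSq V ^ 3 * (2 * δ)) fun k _ => ?_).trans ?_
      · refine (le_abs_self _).trans ?_
        rw [abs_mul]
        refine mul_le_mul (tri_abs_le V i j k) ?_ (abs_nonneg _) (pow_nonneg (frobSq_nonneg V) 3)
        rw [abs_sub_comm]
        exact hbd i j k
      · simp only [Finset.sum_const, Finset.card_univ, nsmul_eq_mul]
        exact le_of_eq (by ring)
    rw [hX2]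
    simp only [mul_sub, mul_neg, Finset.sum_sub_distrib, Finset.sum_neg_distrib] at h2 hcore
    linarith
  have hm := mul_le_mul_of_nonneg_left hqq (by linarith : 0 ≤ a / 2)
  have ec : ∑ i, a * pev D c (b i) * ∑ s, (star (X i s) * V i s).re
      = a * ∑ i, pev D c (b i) * ∑ j, C i j * Complex.normSq (P i j) := by
    rw [Finset.mul_sum]
    refine Finset.sum_congr rfl fun i _ => ?_
    rw [hcross, mul_assoc]
  have ev : ∑ i, a ^ 2 * pev D c (b i) ^ 2 * ∑ s, Complex.normSq (V i s)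
      = a ^ 2 * ∑ i, pev D c (b i) ^ 2 * ∑ s, Complex.normSq (V i s) := by
    rw [Finset.mul_sum]
    exact Finset.sum_congr rfl fun i _ => by ring
  rw [ec, ev] at tot
  simp only [← Finset.mul_sum]
  have eX : frobSq X = ∑ i, ∑ s, Complex.normSq (X i s) := rfl
  have eV : frobSq V' = ∑ i, ∑ s, Complex.normSq (V' i s) := rfl
  rw [eV]
  linarith

theorem lFun_bound {lo hi C : ℝ} (D : ℕ) (c : ℕ → ℝ) (hC : ∀ u ∈ Set.Icc lo hi, |pev D c u| ≤ C)
    {U : Matrix ι ι ℂ} (hU : star U * U = 1) {b : ι → ℝ} (hb : ∀ i, b i ∈ Set.Icc lo hi)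
    (Y : Matrix ι γ ℂ) :
    |lFun D c (conjU U (dg b)) (Y * Yᴴ)| ≤ C * frobSq Y := by
  set V := star U * Y with hV
  have hY : Y = U * V := by rw [hV, ← Matrix.mul_assoc, mul_eq_one_comm.mp hU, Matrix.one_mul]
  rw [hY, frob_unitary hU, ← gram_conj, lFun_conj hU]
  have e : lFun D c (dg b) (V * Vᴴ) = ∑ i, pev D c (b i) * ∑ s, Complex.normSq (V i s) := by
    simp only [lFun, pev, dg_pow]
    simp only [dg, Matrix.trace, Matrix.diag, diagonal_mul, Complex.re_sum, Complex.re_ofReal_mul,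
      Finset.mul_sum, Finset.sum_mul]
    rw [Finset.sum_comm]
    refine Finset.sum_congr rfl fun i _ => ?_
    rw [Finset.sum_comm]
    refine Finset.sum_congr rfl fun l _ => ?_
    simp only [Matrix.mul_apply, conjTranspose_apply, Complex.re_sum, Complex.star_def,
      Complex.mul_conj, Complex.ofReal_re, Finset.mul_sum]
    exact Finset.sum_congr rfl fun s _ => by ring
  rw [e, frobSq, Finset.mul_sum]
  refine (Finset.abs_sum_le_sum_abs _ _).trans (Finset.sum_le_sum fun i _ => ?_)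
  rw [abs_mul, abs_of_nonneg (Finset.sum_nonneg fun s _ => Complex.normSq_nonneg _)]
  exact mul_le_mul_of_nonneg_right (hC _ (hb i)) (Finset.sum_nonneg fun s _ => Complex.normSq_nonneg _)

theorem tFun_diag (D : ℕ) (c : ℕ → ℝ) (b : ι → ℝ) :
    tFun D c (dg b) = ∑ i, pev D c (b i) := by
  simp only [tFun, pev, dg_pow]
  simp only [dg, trace_diagonal, Complex.re_sum, Complex.ofReal_re, Finset.mul_sum]
  exact Finset.sum_comm

end

end Vale.Agent.P371.Mid
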