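import Vale.Agent.P371.Mid.Weighted
import Vale.Agent.P371.Below.Fn
import Vale.Agent.P371.Lift
import Mathlib.Analysis.SpecialFunctions.Trigonometric.Arctan

/-! # The eigenvalue inequality between `γ = 1` and `γ = 3/2` -/

namespace Vale.Agent.P371.Mid

open MeasureTheory Filter Topology Matrix
open Vale.Agent.P371.LT
open scoped ComplexOrder

noncomputable section

/-- The weight `psi a e = 2 arctan (√e/a) (e + a²) - 2 a √e` of an eigenvalue `-e`. -/
def psi (a e : ℝ) : ℝ := 2 * Real.arctan (Real.sqrt e / a) * (e + a ^ 2) - 2 * a * Real.sqrt e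

/-- The Legendre transform of `r ↦ a r² + r³/4` on `r ≥ 0`. -/
def gDual (a l : ℝ) : ℝ :=
  let r := 2 / 3 * (Real.sqrt (4 * a ^ 2 + 3 * l) - 2 * a)
  l * r - a * r ^ 2 - r ^ 3 / 4

/-- The trace of `gDual a` of a matrix. -/
def gTr {m : ℕ} (a : ℝ) (A : Matrix (Fin m) (Fin m) ℂ) : ℝ :=
  if h : A.IsHermitian then ∑ i, gDual a (h.eigenvalues i) else 0

theorem young2 {a l r : ℝ} (ha : 0 ≤ a) (hl : 0 ≤ l) (hr : 0 ≤ r) :
    l * r ≤ gDual a l + a * r ^ 2 + r ^ 3 / 4 := by
  set S := Real.sqrt (4 * a ^ 2 + 3 * l) with hS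
  have hS2 : S ^ 2 = 4 * a ^ 2 + 3 * l := Real.sq_sqrt (by positivity)
  have h2a : 2 * a ≤ S := by
    rw [hS, ← Real.sqrt_sq (by linarith : 0 ≤ 2 * a)]
    exact Real.sqrt_le_sqrt (by linarith)
  set r0 := 2 / 3 * (S - 2 * a) with hr0
  have hl' : l = 2 * a * r0 + 3 / 4 * r0 ^ 2 := by rw [hr0]; linear_combination (-1 / 3 : ℝ) * hS2
  have h0 : 0 ≤ r0 := by rw [hr0]; linarith
  show l * r ≤ (l * r0 - a * r0 ^ 2 - r0 ^ 3 / 4) + a * r ^ 2 + r ^ 3 / 4
  rw [hl']
  nlinarith [mul_nonneg (sq_nonneg (r - r0)) ha, mul_nonneg (sq_nonneg (r - r0))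
    (by linarith : 0 ≤ r + 2 * r0)]

theorem gDual_nonneg {a l : ℝ} (ha : 0 ≤ a) (hl : 0 ≤ l) : 0 ≤ gDual a l := by
  simpa using young2 ha hl le_rfl

theorem gDual_le {a l p : ℝ} (ha : 0 < a) (hl : 0 ≤ l) (hp : 3 / 2 ≤ p) (hp' : p ≤ 2) :
    gDual a l ≤ (1 / (2 * a) + 2) * l ^ p := by
  set S := Real.sqrt (4 * a ^ 2 + 3 * l) with hS
  have hS2 : S ^ 2 = 4 * a ^ 2 + 3 * l := Real.sq_sqrt (by positivity)
  have h2a : 2 * a ≤ S := by
    rw [hS, ← Real.sqrt_sq (by linarith : 0 ≤ 2 * a)]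
    exact Real.sqrt_le_sqrt (by linarith)
  set r0 := 2 / 3 * (S - 2 * a) with hr0
  have h0 : 0 ≤ r0 := by rw [hr0]; linarith
  have hl' : l = 2 * a * r0 + 3 / 4 * r0 ^ 2 := by rw [hr0]; linear_combination (-1 / 3 : ℝ) * hS2
  have h1 : gDual a l ≤ l * r0 := by
    show l * r0 - a * r0 ^ 2 - r0 ^ 3 / 4 ≤ l * r0
    nlinarith [mul_nonneg ha.le (sq_nonneg r0), pow_nonneg h0 3]
  refine h1.trans ?_
  have hlp : 0 ≤ l ^ p := Real.rpow_nonneg hl _
  rcases hl.eq_or_lt with h | h
  · rw [← h, zero_mul]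
    positivity
  rcases le_total l 1 with h' | h'
  · have h3 : r0 ≤ 1 / (2 * a) * l := by
      rw [one_div_mul_eq_div, le_div_iff₀ (by linarith)]
      linarith [sq_nonneg r0]
    have h4 : l ^ 2 ≤ l ^ p := by
      rw [← Real.rpow_two]
      exact Real.rpow_le_rpow_of_exponent_ge h h' hp'
    calc l * r0 ≤ l * (1 / (2 * a) * l) := mul_le_mul_of_nonneg_left h3 hl
      _ = 1 / (2 * a) * l ^ 2 := by ring
      _ ≤ 1 / (2 * a) * l ^ p := mul_le_mul_of_nonneg_left h4 (by positivity)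
      _ ≤ _ := by linarith
  · have h3 : r0 ≤ 2 * Real.sqrt l := by
      have := mul_nonneg ha.le h0
      have e := Real.sq_sqrt hl
      nlinarith [Real.sqrt_nonneg l]
    have h4 : l * Real.sqrt l ≤ l ^ p := by
      rw [show l * Real.sqrt l = l ^ ((3 : ℝ) / 2) by
        rw [Real.sqrt_eq_rpow, ← Real.rpow_one_add' hl (by norm_num)]; norm_num]
      exact Real.rpow_le_rpow_of_exponent_le h' hp
    calc l * r0 ≤ 2 * (l * Real.sqrt l) := by
          rw [show 2 * (l * Real.sqrt l) = l * (2 * Real.sqrt l) by ring]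
          exact mul_le_mul_of_nonneg_left h3 hl
      _ ≤ 2 * l ^ p := by linarith
      _ ≤ _ := by nlinarith [mul_nonneg (by positivity : (0:ℝ) ≤ 1 / (2 * a)) hlp]

theorem continuous_gDual (a : ℝ) : Continuous (gDual a) := by unfold gDual; fun_prop

theorem continuous_gDual_left (l : ℝ) : Continuous fun a => gDual a l := by unfold gDual; fun_prop

theorem gTr_eq {m : ℕ} (a : ℝ) {A : Matrix (Fin m) (Fin m) ℂ} (hA : A.IsHermitian) :
    gTr a A = (fn (gDual a) A).trace.re := by rw [gTr, dif_pos hA, fn_trace _ hA]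

theorem gTr_measurable {m : ℕ} {W : ℝ → Matrix (Fin m) (Fin m) ℂ}
    (hm : ∀ a b, Measurable fun x => W x a b) (hH : ∀ x, (W x).IsHermitian) (a : ℝ) :
    Measurable fun x => gTr a (W x) := by
  simp only [fun x => gTr_eq a (hH x), Matrix.trace, Matrix.diag]
  exact Complex.measurable_re.comp (Finset.measurable_fun_sum _ fun i _ =>
    measurable_fn hm hH (continuous_gDual a) i i)

theorem gTr_nonneg {m : ℕ} {a : ℝ} (ha : 0 ≤ a) {A : Matrix (Fin m) (Fin m) ℂ}
    (hA : A.PosSemidef) : 0 ≤ gTr a A := by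
  rw [gTr, dif_pos hA.isHermitian]
  exact Finset.sum_nonneg fun i _ => gDual_nonneg ha (hA.eigenvalues_nonneg i)

theorem gTr_integrable {g : ℝ} (hg : 1 < g) (hg' : g < 3 / 2) {m : ℕ}
    {W : ℝ → Matrix (Fin m) (Fin m) ℂ} (hW : IsPotentialFor g W) {a : ℝ} (ha : 0 < a) :
    Integrable fun x => gTr a (W x) := by
  refine Integrable.mono' (hW.2.2.const_mul (1 / (2 * a) + 2))
    (gTr_measurable hW.1 (fun x => (hW.2.1 x).isHermitian) a).aestronglyMeasurable
    (Eventually.of_forall fun x => ?_)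
  rw [Real.norm_eq_abs, abs_of_nonneg (gTr_nonneg ha.le (hW.2.1 x)), gTr, trPow,
    dif_pos (hW.2.1 x).isHermitian, dif_pos (hW.2.1 x).isHermitian, Finset.mul_sum]
  exact Finset.sum_le_sum fun i _ =>
    gDual_le ha ((hW.2.1 x).eigenvalues_nonneg i) (by linarith) (by linarith)

theorem rot_sq {m : ℕ} {ι : Type} [Fintype ι] [DecidableEq ι] {A : Matrix (Fin m) (Fin m) ℂ}
    (hA : A.IsHermitian) (Y : Matrix ι (Fin m) ℂ) :
    ∑ c, rot (hA.eigenvectorUnitary : Matrix (Fin m) (Fin m) ℂ) Y c ^ 2 ≤ frobSq (Y * Yᴴ) := by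
  set U : Matrix (Fin m) (Fin m) ℂ := (hA.eigenvectorUnitary : Matrix (Fin m) (Fin m) ℂ)
  have hU : star U * U = 1 := Unitary.star_mul_self_of_mem hA.eigenvectorUnitary.2
  set V : Matrix (Fin m) (Fin m) ℂ := (star U)ᵀ with hVdef
  have hV : V * Vᴴ = 1 := by
    have e : Vᴴ = Uᵀ := by ext a b; simp [hVdef]
    rw [e, hVdef, ← transpose_mul, mul_eq_one_comm.mp hU, transpose_one]
  set Z := Y * V with hZdef
  have hZ : Z * Zᴴ = Y * Yᴴ := by
    rw [hZdef, conjTranspose_mul, Matrix.mul_assoc, ← Matrix.mul_assoc V, hV, Matrix.one_mul]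
  have hd : ∀ c, rot U Y c = ((Zᴴ * Z) c c).re := fun c => by
    rw [rot, Matrix.mul_apply, Complex.re_sum]
    refine Finset.sum_congr rfl fun n _ => ?_
    rw [conjTranspose_apply, Complex.star_def, ← Complex.normSq_eq_conj_mul_self,
      Complex.ofReal_re]
    congr 1
    simp only [hZdef, hVdef, Matrix.mul_apply, transpose_apply, star_apply]
    exact Finset.sum_congr rfl fun b _ => mul_comm _ _
  have e : frobSq (Zᴴ * Z) = frobSq (Z * Zᴴ) := by
    rw [frobSq_eq_trace, frobSq_eq_trace, (Matrix.isHermitian_conjTranspose_mul_self Z).eq,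
      (Matrix.isHermitian_mul_conjTranspose_self Z).eq, Matrix.mul_assoc, Matrix.trace_mul_comm Zᴴ]
    simp only [Matrix.mul_assoc]
  rw [← hZ, ← e, frobSq]
  refine Finset.sum_le_sum fun c _ => le_trans ?_
    (Finset.single_le_sum (fun b _ => Complex.normSq_nonneg ((Zᴴ * Z) c b)) (Finset.mem_univ c))
  rw [hd, Complex.normSq_apply, sq]
  nlinarith [mul_self_nonneg ((Zᴴ * Z) c c).im]

/-- The potential term against the two-term density. -/
theorem potDens_le2 {m : ℕ} {ι : Type} [Fintype ι] [DecidableEq ι]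
    {A : Matrix (Fin m) (Fin m) ℂ} (hA : A.PosSemidef) {a : ℝ} (ha : 0 ≤ a)
    (Y : Matrix ι (Fin m) ℂ) :
    potDens A Y ≤ gTr a A + a * frobSq (Y * Yᴴ) + 1 / 4 * cubeTr (Y * Yᴴ) := by
  rw [potDens_eig hA.isHermitian, gTr, dif_pos hA.isHermitian]
  set U : Matrix (Fin m) (Fin m) ℂ := (hA.isHermitian.eigenvectorUnitary : Matrix (Fin m) (Fin m) ℂ)
  have h2 := mul_le_mul_of_nonneg_left (rot_sq hA.isHermitian Y) ha
  have h3 := mul_le_mul_of_nonneg_left (rot_spec hA.isHermitian Y).2 (by norm_num : (0 : ℝ) ≤ 1 / 4)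
  refine le_trans ?_ (add_le_add (add_le_add le_rfl h2) h3)
  rw [Finset.mul_sum, Finset.mul_sum, ← Finset.sum_add_distrib, ← Finset.sum_add_distrib]
  refine Finset.sum_le_sum fun c _ => ?_
  have := young2 ha (hA.eigenvalues_nonneg c) (rot_nonneg U Y c)
  linarith

/-- The sum of `psi a` over the bound states is at most `∫ gTr a W`. -/
theorem member {g : ℝ} (hg : 1 < g) (hg' : g < 3 / 2) {m N : ℕ}
    {W : ℝ → Matrix (Fin m) (Fin m) ℂ} (hW : IsPotentialFor g W) {E : Fin N → ℝ}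
    {ψ ψ' : Fin N → ℝ → Fin m → ℂ} (h : IsBoundStates W E ψ ψ') {a : ℝ} (ha : 0 < a) :
    ∑ j, psi a |E j| ≤ ∫ x, gTr a (W x) := by
  obtain ⟨h1, h2, h3⟩ := h
  have hF := orthFam_of h1 h2
  set Φ : Fin N → Fin m → ℝ → ℂ := fun n s x => ψ n x s with hΦ
  set Φ' : Fin N → Fin m → ℝ → ℂ := fun n s x => ψ' n x s with hΦ'
  set w : Fin N → ℝ := fun j => 2 * Real.arctan (Real.sqrt |E j| / a) with hw
  have hw0 : ∀ j, 0 < w j := fun j => by
    have : 0 < Real.sqrt |E j| / a :=
      div_pos (Real.sqrt_pos.mpr (abs_pos.mpr (h3 j).1.ne)) ha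
    have := Real.arctan_strictMono this
    rw [Real.arctan_zero] at this
    simp only [hw]
    linarith
  have hwπ : ∀ j, 0 ≤ w j ∧ w j < Real.pi := fun j => by
    refine ⟨(hw0 j).le, ?_⟩
    simp only [hw]
    linarith [Real.arctan_lt_pi_div_two (Real.sqrt |E j| / a)]
  set Y := fun x => wmat w Φ x with hY
  set U0 := fun x => gTr a (W x) + a * frobSq (Y x * (Y x)ᴴ) + 1 / 4 * cubeTr (Y x * (Y x)ᴴ)
    with hU0
  obtain ⟨-, i2, i3, i4, -⟩ := wmat_integrable hF (fun j => (hwπ j).1)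
  have hGi := gTr_integrable hg hg' hW ha
  have hU0i : Integrable U0 := (hGi.add (i3.const_mul _)).add (i4.const_mul _)
  set term : Fin N → ℝ → ℂ := fun n x => ∑ s, ∑ b, star (ψ n x s) * W x s b * ψ n x b with hterm
  have hre : ∀ n x, 0 ≤ (term n x).re ∧ (term n x).im = 0 := by
    intro n x
    have h := (hW.2.1 x).dotProduct_mulVec_nonneg (fun s => ψ n x s)
    rw [← qf_eq] at h
    exact ⟨(Complex.le_def.mp h).1, (Complex.le_def.mp h).2.symm⟩
  have hdom : ∀ x, potDens (W x) (Y x) ≤ U0 x := fun x => potDens_le2 (hW.2.1 x) ha.le (Y x)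
  have hpd : ∀ x, potDens (W x) (Y x) = ∑ n, w n * (term n x).re := fun x => by
    rw [potDens, Complex.re_sum]
    refine Finset.sum_congr rfl fun n _ => ?_
    have : ∑ s, ∑ b, star (Y x n s) * W x s b * Y x n b = (w n : ℂ) * term n x := by
      simp only [hY, wmat_apply, hterm, hΦ, Finset.mul_sum]
      refine Finset.sum_congr rfl fun s _ => Finset.sum_congr rfl fun b _ => ?_
      simp only [star_mul', Complex.star_def, Complex.conj_ofReal]
      calc _ = ((Real.sqrt (w n) : ℂ) * (Real.sqrt (w n) : ℂ))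
            * ((starRingEnd ℂ) (ψ n x s) * W x s b * ψ n x b) := by ring
        _ = _ := by rw [← Complex.ofReal_mul, Real.mul_self_sqrt (hwπ n).1]
    rw [this, Complex.re_ofReal_mul]
  have hmeas : ∀ n, AEStronglyMeasurable (term n) volume := by
    intro n
    refine Measurable.aestronglyMeasurable ?_
    refine Finset.measurable_fun_sum _ fun s _ => Finset.measurable_fun_sum _ fun b _ => ?_
    exact ((continuous_star.measurable.comp ((hF.h1 n s).continuous.measurable)).mul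
      (hW.1 s b)).mul ((hF.h1 n b).continuous.measurable)
  have hint : ∀ n, Integrable (term n) := by
    intro n
    refine Integrable.mono' (hU0i.const_mul (w n)⁻¹) (hmeas n) (Eventually.of_forall fun x => ?_)
    have e : term n x = ((term n x).re : ℂ) := Complex.ext rfl (by simp [(hre n x).2])
    rw [e, Complex.norm_real, Real.norm_eq_abs, abs_of_nonneg (hre n x).1,
      le_inv_mul_iff₀ (hw0 n)]
    refine le_trans ?_ (hdom x)
    rw [hpd]
    exact Finset.single_le_sum (f := fun k => w k * (term k x).re)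
      (fun k _ => mul_nonneg (hwπ k).1 (hre k x).1) (Finset.mem_univ n)
  have key : ∀ n, |E n| = (∫ x, (term n x).re) - ∫ x, ∑ s, Complex.normSq (ψ' n x s) := by
    intro n
    have hq := (h3 n).2 (ψ n) (ψ' n) (h1 n)
    rw [h2 n n, if_pos rfl, mul_one, form] at hq
    have hk : inner2 (ψ' n) (ψ' n) = ((∫ x, ∑ s, Complex.normSq (ψ' n x s) : ℝ) : ℂ) := by
      rw [inner2, ← integral_complex_ofReal]
      refine integral_congr_ae (Eventually.of_forall fun x => ?_)
      push_cast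
      exact Finset.sum_congr rfl fun s _ => (Complex.normSq_eq_conj_mul_self).symm
    rw [hk] at hq
    have := congrArg Complex.re hq
    rw [Complex.sub_re, Complex.ofReal_re, Complex.ofReal_re] at this
    have hi : (∫ x, term n x).re = ∫ x, (term n x).re :=
      (Complex.reCLM.integral_comp_comm (hint n)).symm
    rw [abs_of_neg (h3 n).1]
    linarith
  have hre' : ∀ n, Integrable (fun x => w n * (term n x).re) := fun n =>
    (Complex.reCLM.integrable_comp (hint n)).const_mul _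
  have hs : ∑ n, w n * ∫ x, (term n x).re ≤ ∫ x, U0 x := by
    simp only [← integral_const_mul]
    rw [← integral_finsetSum _ fun n _ => hre' n]
    refine integral_mono (integrable_finsetSum _ fun n _ => hre' n) hU0i fun x => ?_
    show ∑ n, w n * (term n x).re ≤ U0 x
    rw [← hpd]
    exact hdom x
  have hk : ∑ n, w n * ∫ x, ∑ s, Complex.normSq (ψ' n x s) = ∫ x, frobSq (wmat w Φ' x) := by
    simp only [← integral_const_mul]
    rw [← integral_finsetSum _ fun n _ =>
      (integrable_finsetSum _ fun s _ => (hF.h1 n s).normSq_integrable.2).const_mul _]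
    simp only [frobSq_wmat (fun j => (hwπ j).1), hΦ']
  have hU : ∫ x, U0 x = (∫ x, gTr a (W x)) + a * (∫ x, frobSq (Y x * (Y x)ᴴ))
      + 1 / 4 * ∫ x, cubeTr (Y x * (Y x)ᴴ) := by
    rw [hU0, integral_add (f := fun x => gTr a (W x) + a * frobSq (Y x * (Y x)ᴴ))
      (hGi.add (i3.const_mul a)) (i4.const_mul _), integral_add hGi (i3.const_mul a),
      integral_const_mul, integral_const_mul]
  have hv : ∀ j, psi a |E j| = w j * |E j| - a ^ 2 * (2 * Real.tan (w j / 2) - w j) := fun j => by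
    simp only [hw, psi, mul_div_cancel_left₀ _ (two_ne_zero' ℝ), Real.tan_arctan]
    field_simp
    ring
  have hsum : ∑ j, w j * |E j|
      = (∑ n, w n * ∫ x, (term n x).re) - ∫ x, frobSq (wmat w Φ' x) := by
    rw [← hk, ← Finset.sum_sub_distrib]
    exact Finset.sum_congr rfl fun n _ => by rw [key, mul_sub]
  simp only [hv, Finset.sum_sub_distrib, ← Finset.mul_sum]
  have := weighted hF ha.le hwπ
  simp only [Finset.sum_sub_distrib, ← Finset.mul_sum] at this
  rw [hsum]
  simp only [hY] at hU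
  simp only [hΦ'] at hk this ⊢
  linarith

end

end Vale.Agent.P371.Mid
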