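import Vale.Agent.P371.Mid.Member
import Mathlib.Analysis.SpecialFunctions.Gamma.Basic
import Mathlib.Analysis.SpecialFunctions.Log.Deriv

/-! # Mixing the two-term inequalities over the scale -/

namespace Vale.Agent.P371.Mid

open MeasureTheory Filter Topology Matrix
open Vale.Agent.P371.LT
open scoped ComplexOrder ENNReal

noncomputable section

theorem lint_gamma {a r : ℝ} (ha : 0 < a) (hr : 0 < r) :
    ∫⁻ x in Set.Ioi (0 : ℝ), ENNReal.ofReal (x ^ (a - 1) * Real.exp (-(r * x)))
      = ENNReal.ofReal ((1 / r) ^ a * Real.Gamma a) := by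
  have e := Real.integral_rpow_mul_exp_neg_mul_Ioi ha hr
  have hpos : 0 < (1 / r) ^ a * Real.Gamma a :=
    mul_pos (Real.rpow_pos_of_pos (by positivity) a) (Real.Gamma_pos_of_pos ha)
  rw [← e, ofReal_integral_eq_lintegral_ofReal]
  · exact Integrable.of_integral_ne_zero (by rw [e]; exact hpos.ne')
  · filter_upwards [ae_restrict_mem measurableSet_Ioi] with x hx
    exact mul_nonneg (Real.rpow_nonneg (le_of_lt hx) _) (Real.exp_pos _).le

theorem lint_ratio {α β c : ℝ} (hα : 0 < α) (hβ : 0 < β) (hc : 0 < c) :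
    ∫⁻ t in Set.Ioi (0 : ℝ), ENNReal.ofReal (t ^ (α - 1) * (c + t) ^ (-(α + β)))
      = ENNReal.ofReal (c ^ (-β) * ProbabilityTheory.beta α β) := by
  have hν : 0 < α + β := by linarith
  have hΓ : 0 < Real.Gamma (α + β) := Real.Gamma_pos_of_pos hν
  have key : ENNReal.ofReal (Real.Gamma (α + β))
      * ∫⁻ t in Set.Ioi (0 : ℝ), ENNReal.ofReal (t ^ (α - 1) * (c + t) ^ (-(α + β)))
      = ENNReal.ofReal (Real.Gamma α * (c ^ (-β) * Real.Gamma β)) := by
    rw [← lintegral_const_mul' _ _ ENNReal.ofReal_ne_top]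
    calc _ = ∫⁻ t in Set.Ioi (0 : ℝ), ∫⁻ x in Set.Ioi (0 : ℝ),
          ENNReal.ofReal (x ^ (α + β - 1) * Real.exp (-(c * x)))
            * ENNReal.ofReal (t ^ (α - 1) * Real.exp (-(x * t))) := by
          refine setLIntegral_congr_fun measurableSet_Ioi fun t ht => ?_
          have ht0 : 0 < t := ht
          have e : ∀ x, ENNReal.ofReal (x ^ (α + β - 1) * Real.exp (-(c * x)))
              * ENNReal.ofReal (t ^ (α - 1) * Real.exp (-(x * t)))
              = ENNReal.ofReal (t ^ (α - 1))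
                * ENNReal.ofReal (x ^ (α + β - 1) * Real.exp (-((c + t) * x))) := by
            intro x
            have : Real.exp (-((c + t) * x)) = Real.exp (-(c * x)) * Real.exp (-(x * t)) := by
              rw [← Real.exp_add]; ring_nf
            rw [this, ← mul_assoc, ENNReal.ofReal_mul' (Real.exp_pos (-(x * t))).le,
              ENNReal.ofReal_mul' (Real.exp_pos (-(x * t))).le]
            ring
          simp only [e]
          rw [lintegral_const_mul' _ _ ENNReal.ofReal_ne_top, lint_gamma hν (by linarith),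
            ← ENNReal.ofReal_mul (Real.rpow_nonneg ht0.le _), ← ENNReal.ofReal_mul hΓ.le,
            one_div, Real.inv_rpow (by linarith), ← Real.rpow_neg (by linarith)]
          congr 1
          ring
      _ = ∫⁻ x in Set.Ioi (0 : ℝ), ∫⁻ t in Set.Ioi (0 : ℝ),
          ENNReal.ofReal (x ^ (α + β - 1) * Real.exp (-(c * x)))
            * ENNReal.ofReal (t ^ (α - 1) * Real.exp (-(x * t))) :=
          lintegral_lintegral_swap (by unfold Function.uncurry; fun_prop)
      _ = ∫⁻ x in Set.Ioi (0 : ℝ), ENNReal.ofReal (Real.Gamma α)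
          * ENNReal.ofReal (x ^ (β - 1) * Real.exp (-(c * x))) := by
          refine setLIntegral_congr_fun measurableSet_Ioi fun x hx => ?_
          have hx0 : 0 < x := hx
          rw [lintegral_const_mul' _ _ ENNReal.ofReal_ne_top, lint_gamma hα hx0,
            ← ENNReal.ofReal_mul (mul_nonneg (Real.rpow_nonneg hx0.le _) (Real.exp_pos _).le),
            ← ENNReal.ofReal_mul (Real.Gamma_pos_of_pos hα).le]
          congr 1
          rw [one_div, Real.inv_rpow hx0.le, ← Real.rpow_neg hx0.le,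
            show β - 1 = (α + β - 1) + -α by ring, Real.rpow_add hx0]
          ring
      _ = _ := by
          rw [lintegral_const_mul' _ _ ENNReal.ofReal_ne_top, lint_gamma hβ hc,
            ← ENNReal.ofReal_mul (Real.Gamma_pos_of_pos hα).le, one_div, Real.inv_rpow hc.le,
            ← Real.rpow_neg hc.le]
  have e : Real.Gamma α * (c ^ (-β) * Real.Gamma β)
      = Real.Gamma (α + β) * (c ^ (-β) * ProbabilityTheory.beta α β) := by
    rw [ProbabilityTheory.beta]; field_simp
  rw [e, ENNReal.ofReal_mul hΓ.le] at key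
  exact (ENNReal.mul_right_inj (ENNReal.ofReal_pos.mpr hΓ).ne' ENNReal.ofReal_ne_top).mp key

theorem lint_ftc {e : ℝ} (he : 0 ≤ e) {F f : ℝ → ℝ} {k : ℝ → ℝ}
    (hc : ContinuousOn F (Set.Icc 0 e)) (hd : ∀ s ∈ Set.Ioo 0 e, HasDerivAt F (f s) s)
    (h0 : ∀ s ∈ Set.Ioo 0 e, 0 ≤ f s)
    (hk : ∀ s, 0 < s → s < e → k s = f s) (hk' : ∀ s, 0 < s → e ≤ s → k s = 0) :
    ∫⁻ s in Set.Ioi (0 : ℝ), ENNReal.ofReal (k s) = ENNReal.ofReal (F e - F 0) := by
  have hiI : IntervalIntegrable f volume 0 e := by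
    refine intervalIntegral.intervalIntegrable_deriv_of_nonneg (g := F) ?_ ?_ ?_
    · rwa [Set.uIcc_of_le he]
    · rwa [min_eq_left he, max_eq_right he]
    · rwa [min_eq_left he, max_eq_right he]
  rw [← intervalIntegral.integral_eq_sub_of_hasDerivAt_of_le he hc hd hiI,
    intervalIntegral.integral_of_le he, integral_Ioc_eq_integral_Ioo,
    ofReal_integral_eq_lintegral_ofReal (hiI.1.mono_set Set.Ioo_subset_Ioc_self)
      (by filter_upwards [ae_restrict_mem measurableSet_Ioo] with s hs using h0 s hs),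
    ← lintegral_indicator measurableSet_Ioi, ← lintegral_indicator measurableSet_Ioo]
  refine lintegral_congr fun s => ?_
  by_cases hs : s ∈ Set.Ioo 0 e
  · rw [Set.indicator_of_mem hs, Set.indicator_of_mem (Set.mem_Ioi.mpr hs.1), hk s hs.1 hs.2]
  · rw [Set.indicator_of_notMem hs]
    by_cases h : s ∈ Set.Ioi (0 : ℝ)
    · rw [Set.indicator_of_mem h, hk' s h (not_lt.mp fun h' => hs ⟨h, h'⟩), ENNReal.ofReal_zero]
    · rw [Set.indicator_of_notMem h]

theorem psi_lint {a e : ℝ} (ha : 0 < a) (he : 0 ≤ e) :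
    ∫⁻ s in Set.Ioi (0 : ℝ),
        ENNReal.ofReal (max (e - s) 0 * (a / (Real.sqrt s * (s + a ^ 2))))
      = ENNReal.ofReal (psi a e) := by
  rw [lint_ftc he (F := fun s => 2 * Real.arctan (Real.sqrt s / a) * (e + a ^ 2)
      - 2 * a * Real.sqrt s) (f := fun s => (e - s) * (a / (Real.sqrt s * (s + a ^ 2))))]
  · simp [psi]
  · exact Continuous.continuousOn (by fun_prop)
  · intro s hs
    have hs0 := Real.sqrt_pos.mpr hs.1
    have h := ((((Real.hasDerivAt_sqrt hs.1.ne').div_const a).arctan.const_mul 2).mul_const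
      (e + a ^ 2)).fun_sub ((Real.hasDerivAt_sqrt hs.1.ne').const_mul (2 * a))
    refine h.congr_deriv ?_
    have hq := Real.sq_sqrt hs.1.le
    set r := Real.sqrt s
    rw [← hq]
    field_simp
    ring
  · intro s hs
    have : 0 ≤ e - s := by linarith [hs.2]
    have := hs.1
    positivity
  · intro s _ h
    rw [max_eq_left (by linarith)]
  · intro s _ h
    rw [max_eq_right (by linarith), zero_mul]

theorem gDual_lint {a l : ℝ} (ha : 0 < a) (hl : 0 ≤ l) :
    ∫⁻ s in Set.Ioi (0 : ℝ),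
        ENNReal.ofReal (max (l - s) 0 * (Real.sqrt (4 * a ^ 2 + 3 * s))⁻¹)
      = ENNReal.ofReal (gDual a l) := by
  rw [lint_ftc hl (F := fun s => 2 / 3 * (l - s) * Real.sqrt (4 * a ^ 2 + 3 * s)
      + 4 / 27 * ((4 * a ^ 2 + 3 * s) * Real.sqrt (4 * a ^ 2 + 3 * s)))
      (f := fun s => (l - s) * (Real.sqrt (4 * a ^ 2 + 3 * s))⁻¹)]
  · congr 1
    have h4 : Real.sqrt (4 * a ^ 2 + 3 * 0) = 2 * a := by
      rw [show 4 * a ^ 2 + 3 * (0 : ℝ) = (2 * a) ^ 2 by ring, Real.sqrt_sq (by linarith)]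
    simp only [gDual, h4]
    have hS := Real.sq_sqrt (by positivity : 0 ≤ 4 * a ^ 2 + 3 * l)
    set S := Real.sqrt (4 * a ^ 2 + 3 * l)
    have hl' : l = (S ^ 2 - 4 * a ^ 2) / 3 := by rw [hS]; ring
    rw [hl']
    ring
  · exact Continuous.continuousOn (by fun_prop)
  · intro s hs
    have hu : 0 < 4 * a ^ 2 + 3 * s := by have := hs.1; positivity
    have d1 : HasDerivAt (fun s => 4 * a ^ 2 + 3 * s) 3 s := by
      simpa using ((hasDerivAt_id s).const_mul (3 : ℝ)).const_add (4 * a ^ 2)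
    have d2 := d1.sqrt hu.ne'
    have h := ((((hasDerivAt_id' s).const_sub l).const_mul (2 / 3 : ℝ)).fun_mul d2).fun_add
      ((d1.fun_mul d2).const_mul (4 / 27 : ℝ))
    refine h.congr_deriv ?_
    have hS := Real.sq_sqrt hu.le
    have hS0 := Real.sqrt_pos.mpr hu
    set S := Real.sqrt (4 * a ^ 2 + 3 * s)
    rw [← hS]
    field_simp
    ring
  · intro s hs
    exact mul_nonneg (by linarith [hs.2]) (by positivity)
  · intro s _ h
    rw [max_eq_left (by linarith)]
  · intro s _ h
    rw [max_eq_right (by linarith), zero_mul]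

theorem psi_nonneg {a e : ℝ} (ha : 0 < a) (he : 0 ≤ e) : 0 ≤ psi a e := by
  have hmono : MonotoneOn (fun s => 2 * Real.arctan (Real.sqrt s / a) * (e + a ^ 2)
      - 2 * a * Real.sqrt s) (Set.Icc 0 e) := by
    refine monotoneOn_of_deriv_nonneg (convex_Icc 0 e) (Continuous.continuousOn (by fun_prop))
      ?_ ?_ <;> rw [interior_Icc] <;> intro s hs
    · exact ((((Real.hasDerivAt_sqrt hs.1.ne').div_const a).arctan.const_mul 2).mul_const
        (e + a ^ 2)).fun_sub ((Real.hasDerivAt_sqrt hs.1.ne').const_mul (2 * a))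
        |>.differentiableAt.differentiableWithinAt
    · rw [(((((Real.hasDerivAt_sqrt hs.1.ne').div_const a).arctan.const_mul 2).mul_const
        (e + a ^ 2)).fun_sub ((Real.hasDerivAt_sqrt hs.1.ne').const_mul (2 * a))).deriv]
      have hs0 := Real.sqrt_pos.mpr hs.1
      have hq := Real.sq_sqrt hs.1.le
      set r := Real.sqrt s
      have he' : r ^ 2 ≤ e := by rw [hq]; exact hs.2.le
      have key : 2 * (1 / (1 + (r / a) ^ 2) * (1 / (2 * r) / a)) * (e + a ^ 2) - 2 * a * (1 / (2 * r))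
          = (e - r ^ 2) * (a / (r * (r ^ 2 + a ^ 2))) := by
        field_simp
        ring
      rw [key]
      exact mul_nonneg (by linarith) (by positivity)
  have := hmono (Set.left_mem_Icc.mpr he) (Set.right_mem_Icc.mpr he) he
  simpa [psi] using this

/-- The two mixture constants. -/
def cLeft (g : ℝ) : ℝ :=
  ProbabilityTheory.beta (g - 1 / 2) (3 / 2 - g) * ProbabilityTheory.beta (g - 1) 2

/-- The two mixture constants. -/
def cRight (g : ℝ) : ℝ :=
  1 / 2 * (3 / 4) ^ (g - 3 / 2) * ProbabilityTheory.beta (g - 1) (3 / 2 - g)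
    * ProbabilityTheory.beta (g - 1 / 2) 2

theorem psi_mix {g e : ℝ} (hg : 1 < g) (hg' : g < 3 / 2) (he : 0 ≤ e) :
    ∫⁻ t in Set.Ioi (0 : ℝ),
        ENNReal.ofReal (t ^ (g - 2)) * ENNReal.ofReal (psi (Real.sqrt t) e)
      = ENNReal.ofReal (cLeft g * e ^ g) := by
  calc _ = ∫⁻ t in Set.Ioi (0 : ℝ), ∫⁻ s in Set.Ioi (0 : ℝ),
        ENNReal.ofReal (max (e - s) 0 * (Real.sqrt s)⁻¹)
          * ENNReal.ofReal (t ^ (g - 1 / 2 - 1) * (s + t) ^ (-(g - 1 / 2 + (3 / 2 - g)))) := by
        refine setLIntegral_congr_fun measurableSet_Ioi fun t ht => ?_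
        have ht0 : 0 < t := ht
        rw [← psi_lint (Real.sqrt_pos.mpr ht0) he,
          ← lintegral_const_mul' _ _ ENNReal.ofReal_ne_top]
        refine setLIntegral_congr_fun measurableSet_Ioi fun s hs => ?_
        have hs0 : 0 < s := hs
        rw [← ENNReal.ofReal_mul (Real.rpow_nonneg ht0.le _),
          ← ENNReal.ofReal_mul (by positivity : 0 ≤ max (e - s) 0 * (Real.sqrt s)⁻¹)]
        congr 1
        rw [Real.sq_sqrt ht0.le, show -(g - 1 / 2 + (3 / 2 - g)) = (-1 : ℝ) by ring,
          Real.rpow_neg_one, show g - 1 / 2 - 1 = (g - 2) + 1 / 2 by ring, Real.rpow_add ht0,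
          ← Real.sqrt_eq_rpow]
        field_simp
    _ = ∫⁻ s in Set.Ioi (0 : ℝ), ∫⁻ t in Set.Ioi (0 : ℝ),
        ENNReal.ofReal (max (e - s) 0 * (Real.sqrt s)⁻¹)
          * ENNReal.ofReal (t ^ (g - 1 / 2 - 1) * (s + t) ^ (-(g - 1 / 2 + (3 / 2 - g)))) :=
        lintegral_lintegral_swap (by unfold Function.uncurry; fun_prop)
    _ = ∫⁻ s in Set.Ioi (0 : ℝ),
        ENNReal.ofReal (ProbabilityTheory.beta (g - 1 / 2) (3 / 2 - g))
          * ENNReal.ofReal (s ^ (g - 1 - 1) * max (e - s) 0 ^ ((2 : ℝ) - 1)) := by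
        refine setLIntegral_congr_fun measurableSet_Ioi fun s hs => ?_
        have hs0 : 0 < s := hs
        rw [lintegral_const_mul' _ _ ENNReal.ofReal_ne_top,
          lint_ratio (by linarith) (by linarith) hs0,
          ← ENNReal.ofReal_mul (by positivity : 0 ≤ max (e - s) 0 * (Real.sqrt s)⁻¹),
          ← ENNReal.ofReal_mul (ProbabilityTheory.beta_pos (by linarith) (by linarith)).le]
        congr 1
        rw [show (2 : ℝ) - 1 = 1 by norm_num, Real.rpow_one,
          show g - 1 - 1 = -(1 / 2) + -(3 / 2 - g) by ring, Real.rpow_add hs0,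
          Real.rpow_neg hs0.le (1 / 2), ← Real.sqrt_eq_rpow]
        ring
    _ = _ := by
        rw [lintegral_const_mul' _ _ ENNReal.ofReal_ne_top,
          lintegral_beta (by linarith) (by norm_num) he,
          ← ENNReal.ofReal_mul (ProbabilityTheory.beta_pos (by linarith) (by linarith)).le,
          show g - 1 + 2 - 1 = g by ring, cLeft]
        congr 1
        ring

theorem gDual_mix {g l : ℝ} (hg : 1 < g) (hg' : g < 3 / 2) (hl : 0 ≤ l) :
    ∫⁻ t in Set.Ioi (0 : ℝ),
        ENNReal.ofReal (t ^ (g - 2)) * ENNReal.ofReal (gDual (Real.sqrt t) l)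
      = ENNReal.ofReal (cRight g * l ^ (g + 1 / 2)) := by
  calc _ = ∫⁻ t in Set.Ioi (0 : ℝ), ∫⁻ s in Set.Ioi (0 : ℝ),
        ENNReal.ofReal (1 / 2 * max (l - s) 0)
          * ENNReal.ofReal (t ^ (g - 1 - 1) * (3 / 4 * s + t) ^ (-(g - 1 + (3 / 2 - g)))) := by
        refine setLIntegral_congr_fun measurableSet_Ioi fun t ht => ?_
        have ht0 : 0 < t := ht
        rw [← gDual_lint (Real.sqrt_pos.mpr ht0) hl,
          ← lintegral_const_mul' _ _ ENNReal.ofReal_ne_top]
        refine setLIntegral_congr_fun measurableSet_Ioi fun s hs => ?_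
        have hs0 : 0 < s := hs
        rw [← ENNReal.ofReal_mul (Real.rpow_nonneg ht0.le _),
          ← ENNReal.ofReal_mul (by positivity : 0 ≤ 1 / 2 * max (l - s) 0)]
        congr 1
        rw [Real.sq_sqrt ht0.le, show -(g - 1 + (3 / 2 - g)) = -(1 / 2 : ℝ) by ring,
          Real.rpow_neg (by positivity), ← Real.sqrt_eq_rpow,
          show 4 * t + 3 * s = 2 ^ 2 * (3 / 4 * s + t) by ring,
          Real.sqrt_mul' _ (by positivity), Real.sqrt_sq (by norm_num), mul_inv,
          show g - 1 - 1 = g - 2 by ring]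
        ring
    _ = ∫⁻ s in Set.Ioi (0 : ℝ), ∫⁻ t in Set.Ioi (0 : ℝ),
        ENNReal.ofReal (1 / 2 * max (l - s) 0)
          * ENNReal.ofReal (t ^ (g - 1 - 1) * (3 / 4 * s + t) ^ (-(g - 1 + (3 / 2 - g)))) :=
        lintegral_lintegral_swap (by unfold Function.uncurry; fun_prop)
    _ = ∫⁻ s in Set.Ioi (0 : ℝ),
        ENNReal.ofReal (1 / 2 * (3 / 4) ^ (g - 3 / 2) * ProbabilityTheory.beta (g - 1) (3 / 2 - g))
          * ENNReal.ofReal (s ^ (g - 1 / 2 - 1) * max (l - s) 0 ^ ((2 : ℝ) - 1)) := by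
        refine setLIntegral_congr_fun measurableSet_Ioi fun s hs => ?_
        have hs0 : 0 < s := hs
        have hb := (ProbabilityTheory.beta_pos (α := g - 1) (β := 3 / 2 - g) (by linarith)
          (by linarith)).le
        rw [lintegral_const_mul' _ _ ENNReal.ofReal_ne_top,
          lint_ratio (by linarith) (by linarith) (by positivity : 0 < 3 / 4 * s),
          ← ENNReal.ofReal_mul (by positivity : 0 ≤ 1 / 2 * max (l - s) 0),
          ← ENNReal.ofReal_mul (by positivity)]
        congr 1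
        rw [show (2 : ℝ) - 1 = 1 by norm_num, Real.rpow_one,
          show -(3 / 2 - g) = g - 3 / 2 by ring, Real.mul_rpow (by norm_num) hs0.le,
          show g - 1 / 2 - 1 = g - 3 / 2 by ring]
        ring
    _ = _ := by
        have hb := (ProbabilityTheory.beta_pos (α := g - 1) (β := 3 / 2 - g) (by linarith)
          (by linarith)).le
        rw [lintegral_const_mul' _ _ ENNReal.ofReal_ne_top,
          lintegral_beta (by linarith) (by norm_num) hl, ← ENNReal.ofReal_mul (by positivity),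
          show g - 1 / 2 + 2 - 1 = g + 1 / 2 by ring, cRight]
        congr 1
        ring

theorem ratio_eq {g : ℝ} (hg : 1 < g) (hg' : g < 3 / 2) :
    cRight g = (2 / Real.sqrt 3) ^ (3 - 2 * g) * (Real.Gamma (g + 1) /
      (2 * Real.sqrt Real.pi * Real.Gamma (g + 3 / 2))) * cLeft g := by
  have h1 := (Real.Gamma_pos_of_pos (by linarith : 0 < g - 1)).ne'
  have h2 := (Real.Gamma_pos_of_pos (by linarith : 0 < g - 1 / 2)).ne'
  have h3 := (Real.Gamma_pos_of_pos (by linarith : 0 < 3 / 2 - g)).ne'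
  have h4 := (Real.Gamma_pos_of_pos (by linarith : 0 < g + 1)).ne'
  have h5 := (Real.Gamma_pos_of_pos (by linarith : 0 < g + 3 / 2)).ne'
  have hπ : Real.sqrt Real.pi ≠ 0 := by positivity
  have e : (3 / 4 : ℝ) ^ (g - 3 / 2) = (2 / Real.sqrt 3) ^ (3 - 2 * g) := by
    rw [show 3 - 2 * g = (2 : ℕ) * (3 / 2 - g) by push_cast; ring, Real.rpow_natCast_mul (by positivity),
      div_pow, Real.sq_sqrt (by norm_num), show g - 3 / 2 = -(3 / 2 - g) by ring,
      Real.rpow_neg (by norm_num), ← Real.inv_rpow (by norm_num)]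
    norm_num
  rw [cRight, cLeft, e, ProbabilityTheory.beta, ProbabilityTheory.beta, ProbabilityTheory.beta,
    ProbabilityTheory.beta, show g - 1 + (3 / 2 - g) = 1 / 2 by ring,
    show g - 1 / 2 + (3 / 2 - g) = 1 by ring, show g - 1 / 2 + 2 = g + 3 / 2 by ring,
    show g - 1 + 2 = g + 1 by ring, Real.Gamma_one, Real.Gamma_two, Real.Gamma_one_half_eq]
  field_simp

/-- The bound on the whole interval `1 < γ < 3/2`. -/
theorem interp_bound {g : ℝ} (hg : 1 < g) (hg' : g < 3 / 2) {m N : ℕ}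
    {W : ℝ → Matrix (Fin m) (Fin m) ℂ} (hW : IsPotentialFor g W) {E : Fin N → ℝ}
    {ψ ψ' : Fin N → ℝ → Fin m → ℂ} (h : IsBoundStates W E ψ ψ') :
    ∑ j, |E j| ^ g ≤ (2 / Real.sqrt 3) ^ (3 - 2 * g) * (Real.Gamma (g + 1) /
      (2 * Real.sqrt Real.pi * Real.Gamma (g + 3 / 2))) * ∫ x, trPow (g + 1 / 2) (W x) := by
  have hA : 0 < cLeft g := mul_pos (ProbabilityTheory.beta_pos (by linarith) (by linarith))
    (ProbabilityTheory.beta_pos (by linarith) (by norm_num))
  have hB : 0 ≤ cRight g := by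
    have := (ProbabilityTheory.beta_pos (α := g - 1) (β := 3 / 2 - g) (by linarith) (by linarith)).le
    have := (ProbabilityTheory.beta_pos (α := g - 1 / 2) (β := 2) (by linarith) (by norm_num)).le
    unfold cRight
    positivity
  have hH := fun x => (hW.2.1 x).isHermitian
  have hm : Measurable (Function.uncurry fun t x => gTr (Real.sqrt t) (W x)) := by
    refine measurable_uncurry_of_continuous_of_measurable
      (u := fun t x => gTr (Real.sqrt t) (W x)) (fun x => ?_)
      fun t => gTr_measurable hW.1 hH _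
    simp only [gTr, dif_pos (hH x)]
    exact continuous_finsetSum _ fun i _ => (continuous_gDual_left _).comp Real.continuous_sqrt
  have hI : 0 ≤ ∫ x, trPow (g + 1 / 2) (W x) := integral_nonneg fun x => by
    rw [trPow, dif_pos (hH x)]
    exact Finset.sum_nonneg fun a _ => Real.rpow_nonneg ((hW.2.1 x).eigenvalues_nonneg a) _
  have hmain : ENNReal.ofReal (cLeft g * ∑ j, |E j| ^ g)
      ≤ ENNReal.ofReal (cRight g * ∫ x, trPow (g + 1 / 2) (W x)) := by
    rw [Finset.mul_sum, ENNReal.ofReal_sum_of_nonneg fun j _ =>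
      mul_nonneg hA.le (Real.rpow_nonneg (abs_nonneg _) _)]
    simp only [← psi_mix hg hg' (abs_nonneg _)]
    rw [← lintegral_finsetSum _ fun j _ => (by unfold psi; fun_prop)]
    calc ∫⁻ t in Set.Ioi (0 : ℝ), ∑ j, ENNReal.ofReal (t ^ (g - 2))
            * ENNReal.ofReal (psi (Real.sqrt t) |E j|)
        ≤ ∫⁻ t in Set.Ioi (0 : ℝ), ∫⁻ x,
            ENNReal.ofReal (t ^ (g - 2)) * ENNReal.ofReal (gTr (Real.sqrt t) (W x)) := by
          refine setLIntegral_mono' measurableSet_Ioi fun t ht => ?_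
          have ha := Real.sqrt_pos.mpr ht
          rw [lintegral_const_mul' _ _ ENNReal.ofReal_ne_top, ← Finset.mul_sum,
            ← ENNReal.ofReal_sum_of_nonneg fun j _ => psi_nonneg ha (abs_nonneg _)]
          refine mul_le_mul' le_rfl ((ENNReal.ofReal_le_ofReal (member hg hg' hW h ha)).trans_eq ?_)
          exact ofReal_integral_eq_lintegral_ofReal (gTr_integrable hg hg' hW ha)
            (Eventually.of_forall fun x => gTr_nonneg ha.le (hW.2.1 x))
      _ = ∫⁻ x, ∫⁻ t in Set.Ioi (0 : ℝ),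
            ENNReal.ofReal (t ^ (g - 2)) * ENNReal.ofReal (gTr (Real.sqrt t) (W x)) := by
          refine lintegral_lintegral_swap (Measurable.aemeasurable ?_)
          exact ((measurable_fst.pow_const _).ennreal_ofReal).mul hm.ennreal_ofReal
      _ = ∫⁻ x, ENNReal.ofReal (cRight g * trPow (g + 1 / 2) (W x)) := by
          refine lintegral_congr fun x => ?_
          simp only [trPow, gTr, dif_pos (hH x), Finset.mul_sum]
          rw [ENNReal.ofReal_sum_of_nonneg fun i _ =>
            mul_nonneg hB (Real.rpow_nonneg ((hW.2.1 x).eigenvalues_nonneg i) _)]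
          simp only [← gDual_mix hg hg' ((hW.2.1 x).eigenvalues_nonneg _)]
          rw [← lintegral_finsetSum _ fun i _ => (by unfold gDual; fun_prop)]
          refine setLIntegral_congr_fun measurableSet_Ioi fun t ht => ?_
          rw [← Finset.mul_sum, ENNReal.ofReal_sum_of_nonneg fun i _ =>
            gDual_nonneg (Real.sqrt_nonneg t) ((hW.2.1 x).eigenvalues_nonneg i)]
      _ = _ := by
          rw [← integral_const_mul, ofReal_integral_eq_lintegral_ofReal (hW.2.2.const_mul _)
            (Eventually.of_forall fun x => ?_)]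
          refine mul_nonneg hB ?_
          rw [trPow, dif_pos (hH x)]
          exact Finset.sum_nonneg fun a _ =>
            Real.rpow_nonneg ((hW.2.1 x).eigenvalues_nonneg a) _
  have h' := (ENNReal.ofReal_le_ofReal_iff (mul_nonneg hB hI)).mp hmain
  rw [ratio_eq hg hg'] at h'
  refine le_of_mul_le_mul_left ?_ hA
  linarith

/-- The new constant is within two per cent of the one-bound-state constant. -/
theorem near_one_state {g : ℝ} (hg : 1 < g) (hg' : g < 3 / 2) :
    (2 / Real.sqrt 3) ^ (3 - 2 * g)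
      ≤ (51 / 50) * (2 * ((g - 1 / 2) / (g + 1 / 2)) ^ (g - 1 / 2)) := by
  obtain ⟨s, rfl⟩ : ∃ s, g = s + 1 / 2 := ⟨g - 1 / 2, by ring⟩
  have hs : 1 / 2 < s := by linarith
  have hs' : s < 1 := by linarith
  rw [show s + 1 / 2 - 1 / 2 = s by ring, show s + 1 / 2 + 1 / 2 = s + 1 by ring]
  have e : (2 / Real.sqrt 3) ^ (3 - 2 * (s + 1 / 2)) = 4 / 3 * (3 / 4 : ℝ) ^ s := by
    rw [show 3 - 2 * (s + 1 / 2) = (2 : ℕ) * (1 - s) by push_cast; ring,
      Real.rpow_natCast_mul (by positivity), div_pow, Real.sq_sqrt (by norm_num),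
      show (2 : ℝ) ^ 2 / 3 = 4 / 3 by norm_num, Real.rpow_sub (by norm_num), Real.rpow_one,
      show (3 / 4 : ℝ) = (4 / 3)⁻¹ by norm_num, Real.inv_rpow (by norm_num)]
    ring
  rw [e]
  have hq : 0 < s / (s + 1) := by positivity
  set x := 3 / 4 * ((s + 1) / s) with hx
  have hx0 : 0 < x := by positivity
  have h34 : (3 / 4 : ℝ) ^ s = x ^ s * (s / (s + 1)) ^ s := by
    rw [← Real.mul_rpow hx0.le hq.le]
    congr 1
    rw [hx]
    field_simp
  rw [h34]
  suffices hle : x ^ s ≤ 153 / 100 by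
    have := mul_le_mul_of_nonneg_right hle (Real.rpow_nonneg hq.le s)
    linarith
  rw [Real.rpow_def_of_pos hx0]
  refine (Real.exp_le_exp.mpr ?_).trans (Real.exp_log (by norm_num : (0 : ℝ) < 153 / 100)).le
  -- tangent of the logarithm at 7/4
  have h74 : Real.log (7 / 4) ≤ 4 / 7 := by
    rw [Real.log_le_iff_le_exp (by norm_num)]
    refine le_trans ?_ (Real.sum_le_exp_of_nonneg (by norm_num) 5)
    simp only [Finset.sum_range_succ, Finset.sum_range_zero, Nat.factorial]
    norm_num
  have ht := Real.log_le_sub_one_of_pos (show 0 < x / (7 / 4) by positivity)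
  rw [Real.log_div hx0.ne' (by norm_num)] at ht
  have h1 : Real.log x * s ≤ s * (Real.log (7 / 4) - 4 / 7) + 3 / 7 := by
    have := mul_le_mul_of_nonneg_right ht (by linarith : 0 ≤ s)
    have e2 : (x / (7 / 4) - 1) * s = 3 / 7 - 4 / 7 * s := by rw [hx]; field_simp; ring
    nlinarith
  have h2 : s * (Real.log (7 / 4) - 4 / 7) ≤ 1 / 2 * (Real.log (7 / 4) - 4 / 7) :=
    mul_le_mul_of_nonpos_right hs.le (by linarith)
  -- reduce to exp (2/7) * (7/4) ≤ (153/100)^2
  have h3 : Real.log (7 / 4) + 2 / 7 ≤ 2 * Real.log (153 / 100) := by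
    have h7 : (2 / 7 : ℝ) ≤ Real.log (153 / 100 * (153 / 100) / (7 / 4)) := by
      rw [Real.le_log_iff_exp_le (by norm_num)]
      refine (Real.exp_bound' (n := 5) (by norm_num) (by norm_num) (by norm_num)).trans ?_
      simp only [Finset.sum_range_succ, Finset.sum_range_zero, Nat.factorial]
      norm_num
    rw [Real.log_div (by norm_num) (by norm_num), Real.log_mul (by norm_num) (by norm_num)] at h7
    linarith
  linarith

end

end Vale.Agent.P371.Mid
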