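import Vale.Agent.P371.Mid.Kernel
import Vale.Agent.P371.OrthIneq

/-! # The two-term kinetic inequality for weighted orthonormal systems -/

namespace Vale.Agent.P371.Mid

open MeasureTheory Filter Topology Matrix
open scoped ComplexOrder

noncomputable section

variable {ι γ : Type} [Fintype ι] [DecidableEq ι] [Fintype γ]

/-- The weighted matrix of values. -/
def wmat (n : ι → ℝ) (ψ : ι → γ → ℝ → ℂ) (x : ℝ) : Matrix ι γ ℂ :=
  dg (fun i => Real.sqrt (n i)) * ymat ψ x

theorem wmat_apply (n : ι → ℝ) (ψ : ι → γ → ℝ → ℂ) (x : ℝ) (i : ι) (s : γ) :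
    wmat n ψ x i s = (Real.sqrt (n i) : ℂ) * ψ i s x := by
  simp [wmat, dg, ymat, diagonal_mul]

theorem frobSq_wmat {n : ι → ℝ} (hn : ∀ i, 0 ≤ n i) (ψ : ι → γ → ℝ → ℂ) (x : ℝ) :
    frobSq (wmat n ψ x) = ∑ i, n i * ∑ s, Complex.normSq (ψ i s x) := by
  simp only [frobSq, wmat_apply, Complex.normSq_mul, Complex.normSq_ofReal,
    Real.mul_self_sqrt (hn _), Finset.mul_sum]

omit [DecidableEq ι] in
theorem frobSq_gram_le (V : Matrix ι γ ℂ) :
    frobSq (V * Vᴴ) ≤ (Fintype.card ι : ℝ) ^ 2 * frobSq V ^ 2 := by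
  refine (Finset.sum_le_sum fun i _ =>
    Finset.sum_le_sum (g := fun _ => frobSq V ^ 2) fun j _ => ?_).trans ?_
  · rw [Complex.normSq_eq_norm_sq]
    exact pow_le_pow_left₀ (norm_nonneg _) (gram_entry_le V i j) 2
  · simp only [Finset.sum_const, Finset.card_univ, nsmul_eq_mul]
    exact le_of_eq (by ring)

omit [DecidableEq ι] in
theorem cubeTr_abs_le (V : Matrix ι γ ℂ) :
    |cubeTr (V * Vᴴ)| ≤ (Fintype.card ι : ℝ) ^ 3 * frobSq V ^ 3 := by
  rw [cubeTr_eq]
  refine (Finset.abs_sum_le_sum_abs _ _).trans ((Finset.sum_le_sum fun i _ =>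
    (Finset.abs_sum_le_sum_abs _ _).trans (Finset.sum_le_sum fun j _ =>
      (Finset.abs_sum_le_sum_abs _ _).trans
        (Finset.sum_le_sum (g := fun _ => frobSq V ^ 3) fun k _ => tri_abs_le V i j k))).trans ?_)
  simp only [Finset.sum_const, Finset.card_univ, nsmul_eq_mul]
  exact le_of_eq (by ring)

theorem wmat_continuous {ψ ψ' : ι → γ → ℝ → ℂ} (h : OrthFam ψ ψ') (n : ι → ℝ) (i : ι) (s : γ) :
    Continuous fun x => wmat n ψ x i s := by
  simp only [wmat_apply]
  exact continuous_const.mul (h.h1 i s).continuous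

theorem wmat_integrable {ψ ψ' : ι → γ → ℝ → ℂ} (h : OrthFam ψ ψ') {n : ι → ℝ}
    (hn : ∀ i, 0 ≤ n i) :
    Integrable (fun x => frobSq (wmat n ψ x)) ∧ Integrable (fun x => frobSq (wmat n ψ' x)) ∧
      Integrable (fun x => frobSq (wmat n ψ x * (wmat n ψ x)ᴴ)) ∧
      Integrable (fun x => cubeTr (wmat n ψ x * (wmat n ψ x)ᴴ)) ∧
      Integrable (fun x => frobSq (wmat n ψ x) ^ 3) := by
  have h1 : Integrable (fun x => frobSq (wmat n ψ x)) := by
    simp only [frobSq_wmat hn]
    exact integrable_finsetSum _ fun i _ => (integrable_finsetSum _ fun s _ =>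
      (h.h1 i s).normSq_integrable.1).const_mul _
  have h1' : Integrable (fun x => frobSq (wmat n ψ' x)) := by
    simp only [frobSq_wmat hn]
    exact integrable_finsetSum _ fun i _ => (integrable_finsetSum _ fun s _ =>
      (h.h1 i s).normSq_integrable.2).const_mul _
  obtain ⟨B₀, -, hB₀⟩ := h.sum_bounded
  set B := (∑ i, n i) * B₀ with hBdef
  have hn0 : 0 ≤ ∑ i, n i := Finset.sum_nonneg fun i _ => hn i
  have hB : ∀ x, frobSq (wmat n ψ x) ≤ B := by
    intro x
    rw [frobSq_wmat hn]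
    refine le_trans ?_ (mul_le_mul_of_nonneg_left (hB₀ x) hn0)
    rw [Finset.sum_mul]
    refine Finset.sum_le_sum fun i _ => mul_le_mul_of_nonneg_left ?_ (hn i)
    exact Finset.single_le_sum (f := fun i => ∑ s, Complex.normSq (ψ i s x))
      (fun i _ => Finset.sum_nonneg fun s _ => Complex.normSq_nonneg _) (Finset.mem_univ i)
  have hc : Continuous fun x => wmat n ψ x :=
    continuous_pi fun i => continuous_pi fun s => wmat_continuous h n i s
  have hcF : Continuous fun x => frobSq (wmat n ψ x) := by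
    simp only [frobSq]
    fun_prop
  have hcZ : Continuous fun x => wmat n ψ x * (wmat n ψ x)ᴴ :=
    hc.matrix_mul hc.matrix_conjTranspose
  have hS0 : ∀ x, 0 ≤ frobSq (wmat n ψ x) := fun x => frobSq_nonneg _
  have h2 : Integrable (fun x => frobSq (wmat n ψ x) ^ 2) :=
    Integrable.mono' (h1.const_mul B) (hcF.pow 2).aestronglyMeasurable
      (Eventually.of_forall fun x => by
        rw [Real.norm_eq_abs, abs_of_nonneg (sq_nonneg _), sq]
        exact mul_le_mul_of_nonneg_right (hB x) (hS0 x))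
  have h3 : Integrable (fun x => frobSq (wmat n ψ x) ^ 3) :=
    Integrable.mono' (h2.const_mul B) (hcF.pow 3).aestronglyMeasurable
      (Eventually.of_forall fun x => by
        rw [Real.norm_eq_abs, abs_of_nonneg (pow_nonneg (hS0 x) 3), pow_succ, mul_comm]
        exact mul_le_mul_of_nonneg_right (hB x) (sq_nonneg _))
  refine ⟨h1, h1', ?_, ?_, h3⟩
  · refine Integrable.mono' (h2.const_mul ((Fintype.card ι : ℝ) ^ 2)) ?_
      (Eventually.of_forall fun x => ?_)
    · refine Continuous.aestronglyMeasurable ?_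
      simp only [frobSq]
      exact continuous_finsetSum _ fun i _ => continuous_finsetSum _ fun j _ =>
        Complex.continuous_normSq.comp (hcZ.matrix_elem i j)
    · rw [Real.norm_eq_abs, abs_of_nonneg (frobSq_nonneg _)]
      exact frobSq_gram_le _
  · refine Integrable.mono' (h3.const_mul ((Fintype.card ι : ℝ) ^ 3)) ?_
      (Eventually.of_forall fun x => ?_)
    · refine Continuous.aestronglyMeasurable ?_
      simp only [cubeTr]
      exact Complex.continuous_re.comp ((hcZ.matrix_mul hcZ).matrix_mul hcZ).matrix_trace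
    · rw [Real.norm_eq_abs]
      exact cubeTr_abs_le _

/-- The regularised weighted Gram matrix. -/
def wA (ε : ℝ) (n : ι → ℝ) (M : Matrix ι ι ℂ) : Matrix ι ι ℂ :=
  (ε : ℂ) • (1 : Matrix ι ι ℂ) + ((1 / 2 : ℝ) : ℂ) •
    (dg (fun i => Real.sqrt (n i)) * M * dg fun i => Real.sqrt (n i))

theorem wA_diag {ε : ℝ} {n : ι → ℝ} (hn : ∀ i, 0 ≤ n i) :
    wA ε n (1 : Matrix ι ι ℂ) = dg fun i => ε + n i / 2 := by
  rw [wA, mul_one]
  ext i j
  by_cases hij : i = j
  · subst hij
    simp [dg, ← Complex.ofReal_mul, Real.mul_self_sqrt (hn i)]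
    ring
  · simp [dg, hij]

theorem wA_spec {ε r : ℝ} {n : ι → ℝ} (hn : ∀ i, 0 ≤ n i ∧ n i ≤ r) {M : Matrix ι ι ℂ}
    (hM : M.IsHermitian) (hM0 : ∀ w, 0 ≤ (qf M w).re)
    (hM1 : ∀ w, (qf M w).re ≤ ∑ i, Complex.normSq (w i)) :
    ∃ (U : Matrix ι ι ℂ) (α : ι → ℝ), star U * U = 1 ∧ wA ε n M = conjU U (dg α) ∧
      ∀ i, ε ≤ α i ∧ α i ≤ ε + r / 2 := by
  set s := fun i => Real.sqrt (n i) with hs
  have hA : (wA ε n M).IsHermitian := by
    rw [IsHermitian, wA, conjTranspose_add, conjTranspose_smul, conjTranspose_smul,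
      conjTranspose_one, conjTranspose_mul, conjTranspose_mul, hM.eq, dg, diagonal_conjTranspose]
    simp [Matrix.mul_assoc, Pi.star_def]
  obtain ⟨U, α, hU, he⟩ := diagonalize hA
  refine ⟨U, α, hU, he, fun i => ?_⟩
  have h2 : star U * wA ε n M * U = dg α := by
    rw [he, conjU]
    simp only [← mul_assoc, hU, one_mul]
    rw [mul_assoc, hU, mul_one]
  have h3 : (α i : ℂ) = (ε : ℂ) + ((1 / 2 : ℝ) : ℂ) * qf M (fun j => (s j : ℂ) * U j i) := by
    have := congrFun (congrFun h2 i) i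
    simp only [wA, mul_add, add_mul, mul_smul_comm, smul_mul_assoc, mul_one, hU,
      Matrix.add_apply, Matrix.smul_apply, one_apply_eq, smul_eq_mul, dg, diagonal_apply_eq] at this
    rw [← this]
    congr 2
    rw [qf]
    simp only [Matrix.mul_apply (N := U), Matrix.mul_apply (M := star U), mul_diagonal, diagonal_mul,
      Finset.sum_mul, star_apply]
    rw [Finset.sum_comm]
    refine Finset.sum_congr rfl fun j _ => Finset.sum_congr rfl fun k _ => ?_
    simp only [star_mul', Complex.star_def, Complex.conj_ofReal, hs]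
    ring
  have h4 : α i = ε + 1 / 2 * (qf M (fun j => (s j : ℂ) * U j i)).re := by
    have := congrArg Complex.re h3
    simpa [Complex.add_re, Complex.re_ofReal_mul] using this
  have h5 : ∑ j, Complex.normSq (U j i) = 1 := by
    have := congrArg (fun X : Matrix ι ι ℂ => (X i i).re) hU
    simpa [Matrix.mul_apply, star_apply, Complex.re_sum, Complex.normSq_apply] using this
  have h6 := hM0 fun j => (s j : ℂ) * U j i
  have h7 : (qf M fun j => (s j : ℂ) * U j i).re ≤ r := by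
    refine (hM1 _).trans ?_
    calc ∑ j, Complex.normSq ((s j : ℂ) * U j i) ≤ ∑ j, r * Complex.normSq (U j i) := by
          refine Finset.sum_le_sum fun j _ => ?_
          rw [Complex.normSq_mul, Complex.normSq_ofReal, hs, Real.mul_self_sqrt (hn j).1]
          exact mul_le_mul_of_nonneg_right (hn j).2 (Complex.normSq_nonneg _)
      _ = r := by rw [← Finset.mul_sum, h5, mul_one]
  constructor <;> rw [h4] <;> linarith

theorem mmat_atBot {ψ ψ' : ι → γ → ℝ → ℂ} (h : OrthFam ψ ψ') :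
    Tendsto (mmat ψ) atBot (𝓝 0) := by
  refine tendsto_pi_nhds.mpr fun i => tendsto_pi_nhds.mpr fun j => ?_
  have hi := h.dens_integrable i j
  have := (tendsto_const_nhds (x := mmat ψ 0 i j)).sub
    (intervalIntegral_tendsto_integral_Iic 0 hi.integrableOn (tendsto_id (x := atBot)))
  simp only [id] at this
  have e : (fun s => mmat ψ s i j) = fun s => mmat ψ 0 i j - ∫ t in s..0, dens ψ i j t := by
    funext s
    rw [congrFun (h.mmat_eq i j) s, intervalIntegral.integral_symm 0 s]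
    ring
  rw [e]
  simpa [mmat] using this

theorem mmat_atTop {ψ ψ' : ι → γ → ℝ → ℂ} (h : OrthFam ψ ψ') :
    Tendsto (mmat ψ) atTop (𝓝 1) := by
  refine tendsto_pi_nhds.mpr fun i => tendsto_pi_nhds.mpr fun j => ?_
  have hi := h.dens_integrable i j
  have := (tendsto_const_nhds (x := mmat ψ 0 i j)).add
    (intervalIntegral_tendsto_integral_Ioi 0 hi.integrableOn (tendsto_id (x := atTop)))
  simp only [id] at this
  rw [h.mmat_eq i j]
  have e : mmat ψ 0 i j + ∫ t in Set.Ioi (0 : ℝ), dens ψ i j t = (1 : Matrix ι ι ℂ) i j := by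
    rw [show mmat ψ 0 i j = ∫ t in Set.Iic (0 : ℝ), dens ψ i j t from rfl,
      intervalIntegral.integral_Iic_add_Ioi hi.integrableOn hi.integrableOn, h.orth, Matrix.one_apply]
  rw [← e]
  exact this

theorem ac_lin {B Z : ℝ → Matrix ι ι ℂ} {a b : ℝ} (hB : MAC B a b) (hZ : MAC Z a b)
    (D : ℕ) (c : ℕ → ℝ) :
    AbsolutelyContinuousOnInterval (fun t => lFun D c (B t) (Z t)) a b ∧
      AbsolutelyContinuousOnInterval (fun t => tFun D c (B t)) a b := by
  have hp : ∀ l, MAC (fun t => B t ^ l) a b := by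
    intro l
    induction l with
    | zero => simp only [pow_zero]; exact fun i j => ACc.const _ a b
    | succ l ih => simp only [pow_succ']; exact hB.mul ih
  constructor
  · refine ac_sum _ _ a b fun l _ => ?_
    have : ACc (fun t => (B t ^ l * Z t).trace) a b :=
      ACc.sum _ _ a b fun i _ => ((hp l).mul hZ) i i
    exact this.1.const_mul (c l)
  · refine ac_sum _ _ a b fun l _ => ?_
    have : ACc (fun t => (B t ^ l).trace) a b := ACc.sum _ _ a b fun i _ => hp l i i
    exact this.1.const_mul (c l)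

theorem sq_prim_le {lo hi δ : ℝ} (h0 : 0 < lo) (h2 : hi < Real.pi) {D K : ℕ} {c q : ℕ → ℝ}
    (hq : ∀ u, pdd K q u u = pev D c u ^ 2)
    (hc : ∀ u ∈ Set.Icc lo hi, ∀ v ∈ Set.Icc lo hi, |pev D c u * pev D c v - ct u * ct v| ≤ δ)
    {u v : ℝ} (hu : u ∈ Set.Icc lo hi) (hv : v ∈ Set.Icc lo hi) (huv : u ≤ v) :
    pev K q v - pev K q u ≤ -ct v + ct u - (1 - δ) * (v - u) := by
  have hsin : ∀ w ∈ Set.Icc lo hi, Real.sin w ≠ 0 := fun w hw =>
    (Real.sin_pos_of_pos_of_lt_pi (by linarith [hw.1]) (by linarith [hw.2])).ne'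
  have hd : ∀ w ∈ Set.Icc lo hi, HasDerivAt (fun w => -ct w - (1 - δ) * w - pev K q w)
      (-(-(1 / Real.sin w ^ 2)) - (1 - δ) * 1 - pdd K q w w) w := fun w hw =>
    (((hasDerivAt_ct (hsin w hw)).fun_neg).fun_sub
      ((hasDerivAt_id' w).const_mul (1 - δ))).fun_sub (hasDerivAt_pev K q w)
  have hm : MonotoneOn (fun w => -ct w - (1 - δ) * w - pev K q w) (Set.Icc lo hi) := by
    refine monotoneOn_of_deriv_nonneg (convex_Icc lo hi)
      (fun w hw => (hd w hw).continuousAt.continuousWithinAt)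
      (fun w hw => (hd w (interior_subset hw)).differentiableAt.differentiableWithinAt)
      fun w hw => ?_
    have hw' := interior_subset hw
    rw [(hd w hw').deriv, hq]
    have h3 := (abs_le.mp (hc w hw' w hw')).2
    have e : ct w * ct w = 1 / Real.sin w ^ 2 - 1 := by
      have := hsin w hw'
      rw [ct]
      field_simp
      linarith [Real.sin_sq_add_cos_sq w]
    linarith [sq (pev D c w)]
  have := hm hu hv huv
  simp only at this
  linarith

theorem approx_weighted {ψ ψ' : ι → γ → ℝ → ℂ} (h : OrthFam ψ ψ') {n : ι → ℝ} {a ε : ℝ}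
    (ha : 0 ≤ a) (hε : 0 < ε) (hn : ∀ i, 0 ≤ n i ∧ n i ≤ Real.pi - 4 * ε)
    (hε' : ε ≤ Real.pi / 4) :
    a * (1 - 3 / 2 * ε) * (∫ x, frobSq (wmat n ψ x * (wmat n ψ x)ᴴ))
      + 1 / 4 * ((∫ x, cubeTr (wmat n ψ x * (wmat n ψ x)ᴴ))
        - 2 * ε * (Fintype.card ι : ℝ) ^ 3 * ∫ x, frobSq (wmat n ψ x) ^ 3)
      ≤ (∫ x, frobSq (wmat n ψ' x)) + 2 * a ^ 2 * ∑ i, (-ct (ε + n i / 2 + Real.pi / 2)
          + ct (ε + Real.pi / 2) - (1 - ε) * (n i / 2)) := by
  have hn0 : ∀ i, 0 ≤ n i := fun i => (hn i).1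
  have hpi := Real.pi_pos
  set lo := ε with hlo
  set hi := Real.pi - ε with hhi
  obtain ⟨D, c, hc⟩ := cot_approx (lo := lo) (hi := hi) hε (by rw [hhi]; linarith) (by rw [hhi]; linarith) hε
  obtain ⟨K, q, hq⟩ := exists_sq_prim D c
  obtain ⟨C, hC⟩ := (isCompact_Icc (a := lo) (b := hi)).exists_bound_of_continuousOn
    (f := pev D c) (fun u _ => (hasDerivAt_pev D c u).continuousAt.continuousWithinAt)
  set A := fun t => wA ε n (mmat ψ t) with hA
  set P : Matrix ι ι ℂ := dg fun _ => Real.pi / 2 with hP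
  set B := fun t => A t + P with hB
  set Z := fun t => wmat n ψ t * (wmat n ψ t)ᴴ with hZ
  set F := fun t => 1 / 4 * qFun D c (A t) (Z t) + a * lFun D c (B t) (Z t)
    - 2 * a ^ 2 * tFun K q (B t) with hF
  set N3 := (Fintype.card ι : ℝ) ^ 3 with hN3
  set G := fun t => frobSq (wmat n ψ' t) - a * (1 - 3 / 2 * ε) * frobSq (Z t)
    - 1 / 4 * (cubeTr (Z t) - 2 * ε * N3 * frobSq (wmat n ψ t) ^ 3) with hG
  obtain ⟨i1, i2, i3, i4, i5⟩ := wmat_integrable h hn0
  have hGint : Integrable G :=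
    (i2.sub (i3.const_mul _)).sub ((i4.sub (i5.const_mul _)).const_mul _)
  have spec : ∀ t, ∃ (U : Matrix ι ι ℂ) (α : ι → ℝ), star U * U = 1 ∧ A t = conjU U (dg α) ∧
      B t = conjU U (dg fun i => α i + Real.pi / 2) ∧
      (∀ i, 0 < α i ∧ α i < Real.pi / 2) ∧ (∀ i j, α i + α j ∈ Set.Icc lo hi) ∧
      ∀ i, α i + Real.pi / 2 ∈ Set.Icc lo hi := by
    intro t
    obtain ⟨hM1, hM2, hM3⟩ := h.mmat_bounds t
    obtain ⟨U, α, hU, he, hb⟩ := wA_spec (ε := ε) hn hM1 hM2 hM3
    have eP : P = conjU U P := by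
      have : P = ((Real.pi / 2 : ℝ) : ℂ) • (1 : Matrix ι ι ℂ) := by
        rw [hP, dg, smul_one_eq_diagonal]
      rw [this, conjU, mul_smul_comm, smul_mul_assoc, mul_one, mul_eq_one_comm.mp hU]
    refine ⟨U, α, hU, he, ?_, fun i => ⟨by linarith [(hb i).1], by linarith [(hb i).2]⟩,
      fun i j => ⟨by linarith [(hb i).1, (hb j).1], by linarith [(hb i).2, (hb j).2]⟩,
      fun i => ⟨by linarith [(hb i).1], by linarith [(hb i).2]⟩⟩
    simp only [hB, hA]
    rw [he, eP, conjU_add, hP, dg, dg, dg, diagonal_add]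
    simp
  set s := fun i => Real.sqrt (n i) with hs
  have hAd : ∀ t, MDeriv A (((1 / 2 : ℝ) : ℂ) • Z t) t := by
    intro t i j
    have e : Z t i j = (s i : ℂ) * dens ψ i j t * (s j : ℂ) := by
      simp only [hZ, Matrix.mul_apply, conjTranspose_apply, wmat_apply, dens_eq, hs,
        Finset.mul_sum, Finset.sum_mul, star_mul', Complex.star_def, Complex.conj_ofReal]
      exact Finset.sum_congr rfl fun r _ => by ring
    simp only [hA, wA, Matrix.add_apply, Matrix.smul_apply, smul_eq_mul, e]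
    refine HasDerivAt.const_add _ (HasDerivAt.const_mul _ ?_)
    simp only [dg, mul_diagonal, diagonal_mul]
    refine HasDerivAt.mul_const (HasDerivAt.const_mul _ ?_) _
    rw [h.mmat_eq i j]
    exact ((h.dens_continuous i j).integral_hasStrictDerivAt 0 t).hasDerivAt.const_add _
  have hBd : ∀ t, MDeriv B (((1 / 2 : ℝ) : ℂ) • Z t) t := fun t i j => by
    simp only [hB, Matrix.add_apply]
    exact (hAd t i j).add_const _
  have hAc : ∀ u v, MAC A u v := by
    intro u v i j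
    simp only [hA, wA, Matrix.add_apply, Matrix.smul_apply, smul_eq_mul, dg, mul_diagonal,
      diagonal_mul]
    refine (ACc.const _ u v).add ((ACc.const _ u v).mul (((ACc.const _ u v).mul ?_).mul
      (ACc.const _ u v)))
    rw [h.mmat_eq i j]
    exact ACc.prim (fun p r => (h.dens_continuous i j).intervalIntegrable p r) _ u v
  have hBc : ∀ u v, MAC B u v := fun u v => (hAc u v).add fun i j => ACc.const _ u v
  have hWc : ∀ u v, MAC (wmat n ψ) u v ∧ MAC (fun t => (wmat n ψ t)ᴴ) u v := by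
    intro u v
    constructor
    · intro i r
      simp only [wmat_apply]
      exact (ACc.const _ u v).mul ((h.h1 i r).acc u v)
    · intro r i
      simp only [conjTranspose_apply, wmat_apply]
      exact ((ACc.const _ u v).mul ((h.h1 i r).acc u v)).star
  have hderiv : ∀ᵐ t, deriv F t ≤ G t := by
    filter_upwards [h.ymat_mderiv] with t ht
    obtain ⟨U, α, hU, heA, heB, ha', hr, hb⟩ := spec t
    have hwd : MDeriv (wmat n ψ) (wmat n ψ' t) t := by
      intro i r
      simp only [wmat_apply]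
      exact (ht i r).const_mul _
    have hZd : MDeriv Z (wmat n ψ' t * (wmat n ψ t)ᴴ + wmat n ψ t * (wmat n ψ' t)ᴴ) t :=
      hwd.mul hwd.conjTranspose
    have hd := (((hasDerivAt_qFun (hAd t) hZd D c).const_mul (1 / 4 : ℝ)).fun_add
      ((hasDerivAt_lFun (hBd t) hZd D c).const_mul a)).fun_sub
      ((hasDerivAt_tFun (hBd t) K q).const_mul (2 * a ^ 2))
    rw [show deriv F t = _ from hd.deriv]
    have := pointwise D K c q hq hc hU ha' hr hb ha (wmat n ψ t) (wmat n ψ' t)
    rw [← heA, ← heB] at this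
    simp only [hG, hZ] at *
    linarith
  have hbox : ∀ b : ℝ, 0 ≤ b → F b - F (-b) ≤ ∫ t in (-b)..b, G t := by
    intro b hb
    have hZc : MAC Z (-b) b := (hWc _ _).1.mul (hWc _ _).2
    have hac : AbsolutelyContinuousOnInterval F (-b) b :=
      (((ac_qFun (hAc _ _) hZc D c).const_mul _).fun_add
        ((ac_lin (hBc _ _) hZc D c).1.const_mul a)).fun_sub
        ((ac_lin (hBc _ _) hZc K q).2.const_mul _)
    rw [← hac.integral_deriv_eq_sub]
    exact intervalIntegral.integral_mono_ae (by linarith) hac.intervalIntegrable_deriv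
      (hGint.intervalIntegrable) hderiv
  have hseq : ∀ k : ℕ, ∃ b > (k : ℝ),
      frobSq (wmat n ψ b) + frobSq (wmat n ψ (-b)) < 1 / ((k : ℝ) + 1) := fun k =>
    exists_small i1 (by positivity) k
  choose b hb hbS using hseq
  have hbt : Tendsto b atTop atTop :=
    tendsto_atTop_mono (fun k => (hb k).le) tendsto_natCast_atTop_atTop
  have hcont : Continuous fun M : Matrix ι ι ℂ => tFun K q (wA ε n M + P) := by
    unfold tFun wA
    fun_prop
  have hS0 : ∀ (sq : ℕ → ℝ) (L : Matrix ι ι ℂ), Tendsto (fun k => mmat ψ (sq k)) atTop (𝓝 L) →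
      (∀ k, frobSq (wmat n ψ (sq k)) ≤ 1 / ((k : ℝ) + 1)) →
      Tendsto (fun k => F (sq k)) atTop (𝓝 (-(2 * a ^ 2 * tFun K q (wA ε n L + P)))) := by
    intro sq L hL hsq
    have h1 : Tendsto (fun k => frobSq (wmat n ψ (sq k))) atTop (𝓝 0) :=
      squeeze_zero (fun k => frobSq_nonneg _) hsq tendsto_one_div_add_atTop_nhds_zero_nat
    have t1 : Tendsto (fun k => 1 / 4 * qFun D c (A (sq k)) (Z (sq k))
        + a * lFun D c (B (sq k)) (Z (sq k))) atTop (𝓝 0) := by
      refine squeeze_zero_norm (a := fun k => 1 / 4 * ((Fintype.card ι : ℝ) ^ 2 * C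
        * frobSq (wmat n ψ (sq k)) ^ 2) + a * (C * frobSq (wmat n ψ (sq k)))) (fun k => ?_) ?_
      · obtain ⟨U, α, hU, heA, heB, -, hr, hb'⟩ := spec (sq k)
        refine (norm_add_le _ _).trans (add_le_add ?_ ?_)
        · rw [norm_mul, Real.norm_eq_abs, Real.norm_eq_abs, abs_of_pos (by norm_num : (0:ℝ) < 1 / 4),
            heA]
          exact mul_le_mul_of_nonneg_left
            (qFun_bound D c (fun u hu => hC u hu) hU hr _) (by norm_num)
        · rw [norm_mul, Real.norm_eq_abs, Real.norm_eq_abs, abs_of_nonneg ha, heB]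
          exact mul_le_mul_of_nonneg_left (lFun_bound D c (fun u hu => hC u hu) hU hb' _) ha
      · simpa using (((h1.pow 2).const_mul ((Fintype.card ι : ℝ) ^ 2 * C)).const_mul (1 / 4 : ℝ)).add
          ((h1.const_mul C).const_mul a)
    have t2 := ((hcont.tendsto L).comp hL).const_mul (2 * a ^ 2)
    have := t1.sub t2
    rw [zero_sub] at this
    exact this
  have hlim := (hS0 b 1 ((mmat_atTop h).comp hbt)
      (fun k => by linarith [hbS k, frobSq_nonneg (wmat n ψ (-b k))])).sub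
    (hS0 (fun k => -b k) 0 ((mmat_atBot h).comp (tendsto_neg_atTop_atBot.comp hbt))
      (fun k => by linarith [hbS k, frobSq_nonneg (wmat n ψ (b k))]))
  have hI : Tendsto (fun k => ∫ t in (-b k)..(b k), G t) atTop (𝓝 (∫ t, G t)) :=
    intervalIntegral_tendsto_integral hGint (tendsto_neg_atTop_atBot.comp hbt) hbt
  have h0 := le_of_tendsto_of_tendsto' hlim hI fun k =>
    hbox (b k) ((Nat.cast_nonneg k).trans (hb k).le)
  have eT : tFun K q (wA ε n 1 + P) = ∑ i, pev K q (ε + n i / 2 + Real.pi / 2) := by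
    rw [wA_diag hn0, hP, dg, dg, diagonal_add,
      show (diagonal fun i => ((ε + n i / 2 : ℝ) : ℂ) + ((Real.pi / 2 : ℝ) : ℂ))
        = dg fun i => ε + n i / 2 + Real.pi / 2 by simp [dg], tFun_diag]
  have eB : tFun K q (wA ε n 0 + P) = ∑ _i : ι, pev K q (ε + Real.pi / 2) := by
    rw [show wA ε n 0 + P = dg fun _ => ε + Real.pi / 2 by
      simp [wA, hP, dg, smul_one_eq_diagonal, diagonal_add], tFun_diag]
  have hQ : ∑ i, pev K q (ε + n i / 2 + Real.pi / 2) - ∑ _i : ι, pev K q (ε + Real.pi / 2)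
      ≤ ∑ i, (-ct (ε + n i / 2 + Real.pi / 2) + ct (ε + Real.pi / 2) - (1 - ε) * (n i / 2)) := by
    rw [← Finset.sum_sub_distrib]
    refine Finset.sum_le_sum fun i _ => ?_
    refine (sq_prim_le hε (by rw [hhi]; linarith) hq (fun u hu v hv => (hc u hu v hv).2)
      (u := ε + Real.pi / 2) (v := ε + n i / 2 + Real.pi / 2)
      ⟨by linarith, by linarith [hε']⟩ ⟨by linarith [(hn i).1], by linarith [(hn i).2]⟩
      (by linarith [(hn i).1])).trans (le_of_eq ?_)
    ring
  have e : ∫ t, G t = (∫ x, frobSq (wmat n ψ' x)) - a * (1 - 3 / 2 * ε) * (∫ x, frobSq (Z x))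
      - 1 / 4 * ((∫ x, cubeTr (Z x)) - 2 * ε * N3 * ∫ x, frobSq (wmat n ψ x) ^ 3) := by
    simp only [hG, hZ]
    rw [integral_sub, integral_sub, integral_const_mul, integral_const_mul,
      integral_sub, integral_const_mul]
    exacts [i4, i5.const_mul _, i2, i3.const_mul _, i2.sub (i3.const_mul _),
      (i4.sub (i5.const_mul _)).const_mul _]
  rw [eT, eB, e] at h0
  simp only [hZ] at h0 ⊢
  nlinarith [mul_le_mul_of_nonneg_left hQ (by positivity : 0 ≤ 2 * a ^ 2)]

/-- The two-term inequality: `a ∫ tr Z² + ¼ ∫ tr Z³ ≤ T + a² ∑ (2 tan (n/2) - n)`. -/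
theorem weighted {ψ ψ' : ι → γ → ℝ → ℂ} (h : OrthFam ψ ψ') {n : ι → ℝ} {a : ℝ} (ha : 0 ≤ a)
    (hn : ∀ i, 0 ≤ n i ∧ n i < Real.pi) :
    a * (∫ x, frobSq (wmat n ψ x * (wmat n ψ x)ᴴ))
      + 1 / 4 * (∫ x, cubeTr (wmat n ψ x * (wmat n ψ x)ᴴ))
      ≤ (∫ x, frobSq (wmat n ψ' x)) + a ^ 2 * ∑ i, (2 * Real.tan (n i / 2) - n i) := by
  set Iq := ∫ x, frobSq (wmat n ψ x * (wmat n ψ x)ᴴ)
  set Ic := ∫ x, cubeTr (wmat n ψ x * (wmat n ψ x)ᴴ)
  set I3 := ∫ x, frobSq (wmat n ψ x) ^ 3
  set T := ∫ x, frobSq (wmat n ψ' x)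
  set L := fun ε : ℝ => a * (1 - 3 / 2 * ε) * Iq
    + 1 / 4 * (Ic - 2 * ε * (Fintype.card ι : ℝ) ^ 3 * I3) with hL
  set R := fun ε : ℝ => T + 2 * a ^ 2 * ∑ i, (-ct (ε + n i / 2 + Real.pi / 2)
    + ct (ε + Real.pi / 2) - (1 - ε) * (n i / 2)) with hR
  have hpi := Real.pi_pos
  have hLc : Tendsto L (𝓝[>] 0) (𝓝 (L 0)) :=
    tendsto_nhdsWithin_of_tendsto_nhds (Continuous.tendsto (by fun_prop) 0)
  have hct : ∀ u, 0 < u → u < Real.pi → ContinuousAt ct u := fun u h1 h2 =>
    (hasDerivAt_ct (Real.sin_pos_of_pos_of_lt_pi h1 h2).ne').continuousAt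
  have hRc : Tendsto R (𝓝[>] 0) (𝓝 (R 0)) := by
    refine tendsto_nhdsWithin_of_tendsto_nhds (ContinuousAt.tendsto ?_)
    refine continuousAt_const.add (continuousAt_const.mul (tendsto_finsetSum _ fun i _ => ?_))
    refine ((ContinuousAt.comp_of_eq (hct _ ?_ ?_) (by fun_prop) rfl).neg.add
      (ContinuousAt.comp_of_eq (hct _ ?_ ?_) (by fun_prop) rfl)).sub (by fun_prop)
    all_goals linarith [(hn i).1, (hn i).2]
  have hev : ∀ᶠ ε in 𝓝[>] (0 : ℝ), L ε ≤ R ε := by
    have h1 : ∀ᶠ ε in 𝓝 (0 : ℝ), ε ≤ Real.pi / 4 ∧ ∀ i, n i ≤ Real.pi - 4 * ε := by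
      refine (eventually_le_nhds (by positivity)).and (eventually_all.mpr fun i => ?_)
      have : Tendsto (fun ε : ℝ => Real.pi - 4 * ε) (𝓝 0) (𝓝 Real.pi) :=
        Continuous.tendsto' (by fun_prop) _ _ (by ring)
      exact this.eventually (eventually_ge_nhds (hn i).2)
    filter_upwards [nhdsWithin_le_nhds h1, self_mem_nhdsWithin] with ε h2 hε
    exact approx_weighted h ha hε (fun i => ⟨(hn i).1, h2.2 i⟩) h2.1
  have := le_of_tendsto_of_tendsto hLc hRc hev
  have e : R 0 = T + a ^ 2 * ∑ i, (2 * Real.tan (n i / 2) - n i) := by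
    simp only [hR, Finset.mul_sum, zero_add]
    congr 1
    refine Finset.sum_congr rfl fun i _ => ?_
    simp only [ct, Real.cos_add_pi_div_two, Real.sin_add_pi_div_two, Real.cos_pi_div_two,
      Real.sin_pi_div_two, Real.tan_eq_sin_div_cos]
    ring
  rw [e] at this
  simpa [hL] using this

end

end Vale.Agent.P371.Mid
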